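import Mathlib

/-!
# P219: definitions for the sharp inequality in the rotationally symmetric class

A rotationally symmetric metric of nonpositive curvature is written, in the radial coordinate
`R` equal to the radius of its distance spheres, as `h(R^2)^2 dR^2 + R^2 dtheta^2`, with `h 0 = 1`
and `h` nonincreasing.
-/

namespace Vale.Agent.P219.Sharp

open MeasureTheory Metric Set Filter
open scoped RealInnerProductSpace Topology

noncomputable section

/-- Euclidean space of dimension `n`. -/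
abbrev Sp (n : ℕ) := EuclideanSpace ℝ (Fin n)

/-- The hypotheses on the radial factor. -/
structure Met (h : ℝ → ℝ) : Prop where
  smooth : ContDiff ℝ 1 h
  pos : ∀ u, 0 ≤ u → 0 < h u
  one : h 0 = 1
  anti : ∀ u, 0 ≤ u → deriv h u ≤ 0
  complete : Tendsto (fun R : ℝ => ∫ t in (0 : ℝ)..R, h (t ^ 2)) atTop atTop

/-- The continuous extension of `(1 - h u) / u`. -/
def Nc (h : ℝ → ℝ) (u : ℝ) : ℝ := -∫ s in (0 : ℝ)..1, deriv h (s * u)

/-- The squared length of a tangent vector. -/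
def gq {n : ℕ} (h : ℝ → ℝ) (z v : Sp n) : ℝ :=
  ‖v‖ ^ 2 - Nc h (‖z‖ ^ 2) * (1 + h (‖z‖ ^ 2)) * ⟪z, v⟫ ^ 2

/-- The length of a segment. -/
def segLen {n : ℕ} (h : ℝ → ℝ) (x y : Sp n) : ℝ :=
  ∫ s in (0 : ℝ)..1, √(gq h (x + s • (y - x)) (y - x))

/-- The length of a polygonal path. -/
def chain {n : ℕ} (h : ℝ → ℝ) : Sp n → List (Sp n) → Sp n → ℝ
  | x, [], y => segLen h x y
  | x, a :: l, y => segLen h x a + chain h a l y

/-- The distance: infimum of the lengths of polygonal paths. -/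
def gdist {n : ℕ} (h : ℝ → ℝ) (x y : Sp n) : ℝ := ⨅ l : List (Sp n), chain h x l y

/-- The Riemannian volume. -/
def gvol {n : ℕ} (h : ℝ → ℝ) : Measure (Sp n) :=
  volume.withDensity fun z => ENNReal.ofReal (h (‖z‖ ^ 2))

/-- The geodesic thickening. -/
def thick {n : ℕ} (h : ℝ → ℝ) (δ : ℝ) (K : Set (Sp n)) : Set (Sp n) :=
  {x | ∃ y ∈ K, gdist h x y ≤ δ}

/-- Invariance under moving towards the direction `e` along spheres. -/
def CapSym {n : ℕ} (e : Sp n) (K : Set (Sp n)) : Prop :=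
  ∀ x y, ‖x‖ = ‖y‖ → ⟪e, x⟫ ≤ ⟪e, y⟫ → x ∈ K → y ∈ K

/-- The meridian coordinates of a point. -/
def mer {k : ℕ} (z : Sp (k + 2)) : ℝ × ℝ := (z 0, √(‖z‖ ^ 2 - z 0 ^ 2))

/-- The upper half plane. -/
def upper : Set (ℝ × ℝ) := univ ×ˢ Ioi 0

/-- The squared length of a tangent vector in a meridian plane. -/
def gq2 (h : ℝ → ℝ) (z v : ℝ × ℝ) : ℝ :=
  v.1 ^ 2 + v.2 ^ 2 -
    Nc h (z.1 ^ 2 + z.2 ^ 2) * (1 + h (z.1 ^ 2 + z.2 ^ 2)) * (z.1 * v.1 + z.2 * v.2) ^ 2

/-- Fermi coordinates about the axis in the meridian plane: `Jd` is the length of the first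
coordinate vector, `q.2 * E q` the distance sphere factor of the orbit. -/
structure Chart (h : ℝ → ℝ) (Q : ℝ × ℝ ≃ₜ ℝ × ℝ) (Jd E : ℝ × ℝ → ℝ) : Prop where
  smooth : ContDiff ℝ 1 Q
  snd : ∀ p, (Q p).2 = p.2 * E p
  E_cont : Continuous E
  E_one : ∀ p, 1 ≤ E p
  E_mono : ∀ c, MonotoneOn (fun s => E (c, s)) (Ici 0)
  J_cont : Continuous Jd
  J_pos : ∀ p, 0 < Jd p
  J_mono : ∀ c, MonotoneOn (fun s => Jd (c, s)) (Ici 0)
  metric : ∀ p a b, gq2 h (Q p) (fderiv ℝ Q p (a, b)) = Jd p ^ 2 * a ^ 2 + b ^ 2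
  det : ∀ p, h ((Q p).1 ^ 2 + (Q p).2 ^ 2) * |(fderiv ℝ Q p).det| = Jd p

/-- The density of the volume in chart coordinates, per orbit constant. -/
def dens (k : ℕ) (Jd E : ℝ × ℝ → ℝ) (q : ℝ × ℝ) : ℝ := Jd q * (q.2 * E q) ^ k

/-- The mass of a set of the chart. -/
def mass (k : ℕ) (Jd E : ℝ × ℝ → ℝ) (A : Set (ℝ × ℝ)) : ℝ :=
  ∫ q in A ∩ upper, dens k Jd E q

/-- The volume of the Euclidean unit ball. -/
def omega (n : ℕ) : ℝ := volume.real (closedBall (0 : Sp n) 1)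

/-- The area of the unit sphere of dimension `k`. -/
def sphereArea (k : ℕ) : ℝ := (k + 1) * omega (k + 1)

/-- The meridian constant of the Euclidean unit ball. -/
def ballConst (k : ℕ) : ℝ := (∫ z in (-1 : ℝ)..1, √(1 - z ^ 2) ^ (k + 1)) / (k + 1)

end

end Vale.Agent.P219.Sharp
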