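import Vale.Agent.P219.Sharp.GeoBase

/-!
# P219: the chain metric and geodesic thickenings
-/

namespace Vale.Agent.P219.Sharp

open MeasureTheory Metric Set Filter
open scoped RealInnerProductSpace Topology

noncomputable section

variable {n : ℕ} {h : ℝ → ℝ}

theorem norm_sq_mul_gq (hM : Met h) (z v : Sp n) :
    ‖z‖ ^ 2 * gq h z v =
      ‖z‖ ^ 2 * ‖v‖ ^ 2 - ⟪z, v⟫ ^ 2 + h (‖z‖ ^ 2) ^ 2 * ⟪z, v⟫ ^ 2 := by
  have e := mul_Nc hM (‖z‖ ^ 2)
  unfold gq
  linear_combination -(1 + h (‖z‖ ^ 2)) * ⟪z, v⟫ ^ 2 * e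

theorem inner_sq_le (z v : Sp n) : ⟪z, v⟫ ^ 2 ≤ ‖z‖ ^ 2 * ‖v‖ ^ 2 := by
  rw [← sq_abs, ← mul_pow]
  exact pow_le_pow_left₀ (abs_nonneg _) (abs_real_inner_le_norm z v) 2

theorem gq_nonneg (hM : Met h) (z v : Sp n) : 0 ≤ gq h z v := by
  rcases eq_or_ne z 0 with rfl | hz
  · simp [gq]
  · have h1 : 0 < ‖z‖ ^ 2 := by positivity
    have h2 := norm_sq_mul_gq hM z v
    have h3 : 0 ≤ h (‖z‖ ^ 2) ^ 2 * ⟪z, v⟫ ^ 2 := by positivity
    have h4 := inner_sq_le z v
    nlinarith

theorem gq_le (hM : Met h) (z v : Sp n) : gq h z v ≤ ‖v‖ ^ 2 := by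
  have h1 := Nc_nonneg hM (sq_nonneg ‖z‖)
  have h2 := hM.pos (‖z‖ ^ 2) (sq_nonneg _)
  have h3 : 0 ≤ Nc h (‖z‖ ^ 2) * (1 + h (‖z‖ ^ 2)) * ⟪z, v⟫ ^ 2 := by positivity
  unfold gq
  linarith

theorem continuous_gq (hM : Met h) : Continuous fun p : Sp n × Sp n => gq h p.1 p.2 := by
  have := continuous_Nc hM
  have := hM.cont
  unfold gq
  fun_prop

theorem continuous_speed (hM : Met h) (x v : Sp n) :
    Continuous fun s : ℝ => √(gq h (x + s • v) v) := by
  have := continuous_Nc hM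
  have := hM.cont
  unfold gq
  fun_prop

theorem segLen_nonneg (h : ℝ → ℝ) (x y : Sp n) : 0 ≤ segLen h x y :=
  intervalIntegral.integral_nonneg zero_le_one fun _ _ => Real.sqrt_nonneg _

theorem segLen_le_norm (hM : Met h) (x y : Sp n) : segLen h x y ≤ ‖y - x‖ := by
  have hle : segLen h x y ≤ ∫ _ in (0 : ℝ)..1, ‖y - x‖ := by
    refine intervalIntegral.integral_mono_on zero_le_one
      ((continuous_speed hM x (y - x)).intervalIntegrable _ _) intervalIntegrable_const fun s _ => ?_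
    rw [Real.sqrt_le_left (norm_nonneg _)]
    exact gq_le hM _ _
  simpa using hle

theorem gq_neg (h : ℝ → ℝ) (z v : Sp n) : gq h z (-v) = gq h z v := by
  simp [gq, inner_neg_right]

theorem segLen_comm (h : ℝ → ℝ) (x y : Sp n) : segLen h x y = segLen h y x := by
  have e := intervalIntegral.integral_comp_sub_left (a := 0) (b := 1)
    (fun s : ℝ => √(gq h (x + s • (y - x)) (y - x))) 1
  rw [sub_self, sub_zero] at e
  unfold segLen
  rw [← e]
  refine intervalIntegral.integral_congr fun s _ => ?_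
  rw [← gq_neg h (y + s • (x - y)) (x - y), neg_sub,
    show x + (1 - s) • (y - x) = y + s • (x - y) by module]

theorem chain_nonneg (h : ℝ → ℝ) : ∀ (x : Sp n) (l : List (Sp n)) (y : Sp n), 0 ≤ chain h x l y
  | x, [], y => segLen_nonneg h x y
  | x, a :: l, y => add_nonneg (segLen_nonneg h x a) (chain_nonneg h a l y)

theorem chain_append (h : ℝ → ℝ) : ∀ (x : Sp n) (l : List (Sp n)) (a : Sp n) (m : List (Sp n))
    (y : Sp n), chain h x (l ++ a :: m) y = chain h x l a + chain h a m y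
  | x, [], a, m, y => rfl
  | x, b :: l, a, m, y => by
    simp only [List.cons_append, chain, chain_append h b l a m y]
    ring

theorem chain_reverse (h : ℝ → ℝ) : ∀ (x : Sp n) (l : List (Sp n)) (y : Sp n),
    chain h y l.reverse x = chain h x l y
  | x, [], y => segLen_comm h y x
  | x, a :: l, y => by
    rw [List.reverse_cons, chain_append, chain_reverse h a l y]
    simp only [chain, segLen_comm h a x]
    ring

theorem bddBelow_chain (h : ℝ → ℝ) (x y : Sp n) :
    BddBelow (range fun l : List (Sp n) => chain h x l y) :=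
  ⟨0, by rintro r ⟨l, rfl⟩; exact chain_nonneg h x l y⟩

theorem gdist_le_chain (h : ℝ → ℝ) (x y : Sp n) (l : List (Sp n)) :
    gdist h x y ≤ chain h x l y :=
  ciInf_le (bddBelow_chain h x y) l

theorem gdist_le_segLen (_hM : Met h) (x y : Sp n) : gdist h x y ≤ segLen h x y :=
  gdist_le_chain h x y []

theorem gdist_nonneg (_hM : Met h) (x y : Sp n) : 0 ≤ gdist h x y :=
  le_ciInf fun l => chain_nonneg h x l y

theorem gdist_le_norm (hM : Met h) (x y : Sp n) : gdist h x y ≤ ‖y - x‖ :=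
  (gdist_le_segLen hM x y).trans (segLen_le_norm hM x y)

theorem gdist_self (hM : Met h) (x : Sp n) : gdist h x x = 0 :=
  le_antisymm (by simpa using gdist_le_norm hM x x) (gdist_nonneg hM x x)

theorem gdist_comm (_hM : Met h) (x y : Sp n) : gdist h x y = gdist h y x := by
  have key : ∀ a b : Sp n, gdist h a b ≤ gdist h b a := fun a b =>
    le_ciInf fun l => (gdist_le_chain h a b l.reverse).trans_eq (chain_reverse h b l a)
  exact le_antisymm (key x y) (key y x)

theorem gdist_triangle (_hM : Met h) (x y z : Sp n) :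
    gdist h x z ≤ gdist h x y + gdist h y z := by
  have key : ∀ l m, gdist h x z ≤ chain h x l y + chain h y m z := fun l m =>
    (gdist_le_chain h x z (l ++ y :: m)).trans_eq (chain_append h x l y m z)
  have h1 : ∀ l, gdist h x z - chain h x l y ≤ gdist h y z := fun l =>
    le_ciInf fun m => by linarith [key l m]
  have h2 : gdist h x z - gdist h y z ≤ gdist h x y := le_ciInf fun l => by linarith [h1 l]
  linarith

theorem continuous_gdist (hM : Met h) : Continuous fun p : Sp n × Sp n => gdist h p.1 p.2 := by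
  refine (LipschitzWith.of_le_add_mul 2 fun p q => ?_).continuous
  have h1 := gdist_triangle hM p.1 q.1 p.2
  have h2 := gdist_triangle hM q.1 q.2 p.2
  have h3 := gdist_le_norm hM p.1 q.1
  have h4 := gdist_le_norm hM q.2 p.2
  have h5 : ‖q.1 - p.1‖ ≤ dist p q := by
    rw [← dist_eq_norm, dist_comm, Prod.dist_eq]; exact le_max_left _ _
  have h6 : ‖p.2 - q.2‖ ≤ dist p q := by
    rw [← dist_eq_norm, Prod.dist_eq]; exact le_max_right _ _
  simp only [NNReal.coe_ofNat]
  linarith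

/-- The radial function measured from the origin changes no faster than the length. -/
theorem radial_le_segLen (hM : Met h) (x y : Sp n) :
    |∫ t in ‖x‖..‖y‖, h (t ^ 2)| ≤ segLen h x y := by
  have hc := hM.cont
  have hh : Continuous fun t : ℝ => h (t ^ 2) := by fun_prop
  let Φ : ℝ → ℝ := fun r => ∫ t in (0 : ℝ)..r, h (t ^ 2)
  have hΦ : ∀ r, HasDerivAt Φ (h (r ^ 2)) r := fun r =>
    (hh.integral_hasStrictDerivAt 0 r).hasDerivAt
  have hΦc : Continuous Φ := continuous_iff_continuousAt.2 fun r => (hΦ r).continuousAt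
  set d := y - x with hd
  let z : ℝ → Sp n := fun s => x + s • d
  have hz : Continuous z := by fun_prop
  have key : ∀ ε : ℝ, 0 < ε →
      |Φ (√(‖z 1‖ ^ 2 + ε)) - Φ (√(‖z 0‖ ^ 2 + ε))| ≤ segLen h x y := by
    intro ε hε
    let g : ℝ → ℝ := fun s => h (‖z s‖ ^ 2 + ε) * (⟪z s, d⟫ / √(‖z s‖ ^ 2 + ε))
    have hzd : ∀ s : ℝ, HasDerivAt z d s := fun s => by
      simpa [z] using ((hasDerivAt_id s).smul_const d).const_add x
    have hg : ∀ s ∈ uIcc (0 : ℝ) 1,
        HasDerivAt (fun s => Φ (√(‖z s‖ ^ 2 + ε))) (g s) s := by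
      intro s _
      have h1 := ((hzd s).norm_sq.add_const ε).sqrt (by positivity)
      refine ((hΦ _).comp s h1).congr_deriv ?_
      simp only [g]
      rw [Real.sq_sqrt (by positivity)]
      ring
    have hgc : Continuous g := by
      refine (hc.comp (by fun_prop)).mul ((by fun_prop : Continuous fun s => ⟪z s, d⟫).div₀
        (by fun_prop) fun s => ?_)
      have : (0 : ℝ) < ‖z s‖ ^ 2 + ε := by positivity
      positivity
    rw [← intervalIntegral.integral_eq_sub_of_hasDerivAt hg (hgc.intervalIntegrable _ _)]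
    refine (intervalIntegral.abs_integral_le_integral_abs zero_le_one).trans ?_
    refine intervalIntegral.integral_mono_on zero_le_one (hgc.abs.intervalIntegrable _ _)
      ((continuous_speed hM x d).intervalIntegrable _ _) fun s _ => ?_
    refine Real.abs_le_sqrt ?_
    have hu : (0 : ℝ) < ‖z s‖ ^ 2 + ε := by positivity
    have h1 : h (‖z s‖ ^ 2 + ε) ≤ h (‖z s‖ ^ 2) :=
      hM.antitone (mem_Ici.2 (sq_nonneg _)) (mem_Ici.2 hu.le) (by linarith)
    have h2 := hM.pos _ hu.le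
    have h3 := norm_sq_mul_gq hM (z s) d
    have h4 := inner_sq_le (z s) d
    have h5 := gq_nonneg hM (z s) d
    simp only [g, mul_pow, div_pow, Real.sq_sqrt hu.le]
    rw [← mul_div_assoc, div_le_iff₀ hu]
    have h6 : h (‖z s‖ ^ 2 + ε) ^ 2 * ⟪z s, d⟫ ^ 2 ≤ h (‖z s‖ ^ 2) ^ 2 * ⟪z s, d⟫ ^ 2 :=
      mul_le_mul_of_nonneg_right (pow_le_pow_left₀ h2.le h1 2) (sq_nonneg _)
    show h (‖z s‖ ^ 2 + ε) ^ 2 * ⟪z s, d⟫ ^ 2 ≤ gq h (z s) d * (‖z s‖ ^ 2 + ε)
    nlinarith
  have hlim : Tendsto (fun ε : ℝ => |Φ (√(‖z 1‖ ^ 2 + ε)) - Φ (√(‖z 0‖ ^ 2 + ε))|)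
      (𝓝[>] 0) (𝓝 |Φ ‖y‖ - Φ ‖x‖|) := by
    have hcont : Continuous fun ε : ℝ =>
        |Φ (√(‖z 1‖ ^ 2 + ε)) - Φ (√(‖z 0‖ ^ 2 + ε))| := by fun_prop
    have := (hcont.tendsto 0).mono_left (nhdsWithin_le_nhds (s := Ioi (0 : ℝ)))
    simpa [z, hd, Real.sqrt_sq (norm_nonneg _)] using this
  have hle := le_of_tendsto hlim
    (eventually_nhdsWithin_of_forall fun ε (hε : ε ∈ Ioi (0 : ℝ)) => key ε hε)
  rwa [intervalIntegral.integral_interval_sub_left (hh.intervalIntegrable _ _)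
    (hh.intervalIntegrable _ _)] at hle

theorem radial_le_chain (hM : Met h) : ∀ (x : Sp n) (l : List (Sp n)) (y : Sp n),
    |∫ t in ‖x‖..‖y‖, h (t ^ 2)| ≤ chain h x l y
  | x, [], y => radial_le_segLen hM x y
  | x, a :: l, y => by
    have hh : Continuous fun t : ℝ => h (t ^ 2) := by have := hM.cont; fun_prop
    rw [← intervalIntegral.integral_add_adjacent_intervals (b := ‖a‖)
      (hh.intervalIntegrable _ _) (hh.intervalIntegrable _ _)]
    exact (abs_add_le _ _).trans (add_le_add (radial_le_segLen hM x a) (radial_le_chain hM a l y))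

theorem radial_le_gdist (hM : Met h) (x y : Sp n) :
    |∫ t in ‖x‖..‖y‖, h (t ^ 2)| ≤ gdist h x y :=
  le_ciInf fun l => radial_le_chain hM x l y

theorem gvol_lt_top (hM : Met h) {K : Set (Sp n)} (hK : IsCompact K) : gvol h K < ⊤ := by
  rw [gvol, withDensity_apply _ hK.measurableSet]
  refine lt_of_le_of_lt (setLIntegral_mono measurable_const fun z _ => ?_)
    (show ∫⁻ _ in K, (1 : ENNReal) < ⊤ by rw [setLIntegral_one]; exact hK.measure_lt_top)
  rw [← ENNReal.ofReal_one]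
  exact ENNReal.ofReal_le_ofReal (hM.le_one (sq_nonneg _))

theorem exists_bound_thick (hM : Met h) (R δ : ℝ) :
    ∃ R', ∀ K : Set (Sp n), K ⊆ closedBall 0 R → thick h δ K ⊆ closedBall 0 R' := by
  have hh : Continuous fun t : ℝ => h (t ^ 2) := by have := hM.cont; fun_prop
  obtain ⟨R', hR'⟩ := eventually_atTop.1 (hM.complete.eventually
    (eventually_gt_atTop (δ + ∫ t in (0 : ℝ)..R, h (t ^ 2))))
  refine ⟨R', fun K hK x hx => ?_⟩
  obtain ⟨y, hy, hxy⟩ := hx
  have hyR : ‖y‖ ≤ R := by simpa using hK hy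
  rw [mem_closedBall, dist_zero_right]
  by_contra hlt
  have h1 := hR' ‖x‖ (le_of_not_ge hlt)
  have h2 := (radial_le_gdist hM x y).trans hxy
  have hi := fun a b : ℝ => hh.intervalIntegrable (μ := volume) a b
  rw [← intervalIntegral.integral_interval_sub_left (hi 0 ‖y‖) (hi 0 ‖x‖), abs_le] at h2
  have h3 : ∫ t in (0 : ℝ)..‖y‖, h (t ^ 2) ≤ ∫ t in (0 : ℝ)..R, h (t ^ 2) :=
    intervalIntegral.integral_mono_interval le_rfl (norm_nonneg y) hyR
      (ae_of_all _ fun t => (hM.pos _ (sq_nonneg t)).le) (hi _ _)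
  linarith [h2.1]

theorem isCompact_thick (hM : Met h) {K : Set (Sp n)} (hK : IsCompact K) (δ : ℝ) :
    IsCompact (thick h δ K) := by
  obtain ⟨R, hR⟩ := hK.isBounded.subset_closedBall 0
  obtain ⟨R', hR'⟩ := exists_bound_thick (n := n) hM R δ
  have e : thick h δ K =
      Prod.fst '' ((closedBall (0 : Sp n) R' ×ˢ K) ∩ {p | gdist h p.1 p.2 ≤ δ}) := by
    ext x
    constructor
    · rintro hx
      obtain ⟨y, hy, hxy⟩ := hx
      exact ⟨(x, y), ⟨⟨hR' K hR ⟨y, hy, hxy⟩, hy⟩, hxy⟩, rfl⟩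
    · rintro ⟨⟨a, y⟩, ⟨⟨-, hy⟩, hay⟩, rfl⟩
      exact ⟨y, hy, hay⟩
  rw [e]
  exact (((isCompact_closedBall _ _).prod hK).inter_right
    (isClosed_le (continuous_gdist hM) continuous_const)).image continuous_fst

theorem subset_thick (hM : Met h) (K : Set (Sp n)) {δ : ℝ} (hδ : 0 ≤ δ) : K ⊆ thick h δ K :=
  fun x hx => ⟨x, hx, by rw [gdist_self hM]; exact hδ⟩

theorem thick_thick (hM : Met h) (K : Set (Sp n)) (a b : ℝ) :
    thick h a (thick h b K) ⊆ thick h (a + b) K := by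
  rintro x ⟨y, ⟨w, hw, hyw⟩, hxy⟩
  exact ⟨w, hw, (gdist_triangle hM x y w).trans (add_le_add hxy hyw)⟩

end

end Vale.Agent.P219.Sharp
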