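import Vale.Agent.P219.Sharp.Defs

/-!
# P219: axisymmetric integration and change of variables in the meridian plane
-/

namespace Vale.Agent.P219.Sharp

open MeasureTheory Metric Set Filter Real
open scoped RealInnerProductSpace Topology

noncomputable section

variable {k : ℕ} {h : ℝ → ℝ} {Q : ℝ × ℝ ≃ₜ ℝ × ℝ} {Jd E : ℝ × ℝ → ℝ}

theorem omega_pos (n : ℕ) : 0 < omega n :=
  ENNReal.toReal_pos (measure_closedBall_pos volume (0 : Sp n) one_pos).ne'
    (isCompact_closedBall (0 : Sp n) 1).measure_lt_top.ne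

theorem sphereArea_pos : 0 < sphereArea k := by
  have := omega_pos (k + 1)
  unfold sphereArea; positivity

/-- Integration of a radial function. -/
theorem radial_lintegral {f : ℝ → ENNReal} (hf : Measurable f) :
    ∫⁻ y : Sp (k + 1), f ‖y‖ =
      ENNReal.ofReal (sphereArea k) * ∫⁻ r in Ioi 0, f r * ENNReal.ofReal (r ^ k) := by
  set μ : Measure (Sp (k + 1)) := volume
  have hp := μ.measurePreserving_homeomorphUnitSphereProd
  rw [finrank_euclideanSpace_fin, Nat.add_sub_cancel] at hp
  have hg : Measurable fun x : sphere (0 : Sp (k + 1)) 1 × Ioi (0 : ℝ) => f x.2 := by fun_prop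
  have e1 := hp.lintegral_comp hg
  simp only [homeomorphUnitSphereProd_apply_snd_coe] at e1
  rw [lintegral_subtype_comap (measurableSet_singleton _).compl fun y : Sp (k + 1) => f ‖y‖,
    restrict_compl_singleton] at e1
  rw [e1, lintegral_prod _ hg.aemeasurable]
  simp only [lintegral_const]
  rw [Measure.toSphere_apply_univ, finrank_euclideanSpace_fin, mul_comm]
  congr 1
  · rw [sphereArea, ENNReal.ofReal_mul (by positivity), omega, measureReal_def,
      ENNReal.ofReal_toReal (isCompact_closedBall (0 : Sp (k + 1)) 1).measure_lt_top.ne,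
      Measure.addHaar_closedBall_eq_addHaar_ball, ← Nat.cast_add_one, ENNReal.ofReal_natCast]
  · rw [Measure.volumeIoiPow, lintegral_withDensity_eq_lintegral_mul _ (by fun_prop) (by fun_prop),
      ← lintegral_subtype_comap measurableSet_Ioi fun r : ℝ => f r * ENNReal.ofReal (r ^ k)]
    exact lintegral_congr fun r => mul_comm _ _

theorem sq_le_norm_sq (z : Sp (k + 2)) : z 0 ^ 2 ≤ ‖z‖ ^ 2 := by
  rw [EuclideanSpace.norm_sq_eq]
  refine le_trans ?_ (Finset.single_le_sum (fun i _ => sq_nonneg ‖z i‖) (Finset.mem_univ 0))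
  simp [norm_eq_abs]

theorem mer_normSq (z : Sp (k + 2)) : (mer z).1 ^ 2 + (mer z).2 ^ 2 = ‖z‖ ^ 2 := by
  simp only [mer, sq_sqrt (sub_nonneg.2 (sq_le_norm_sq z))]; ring

theorem continuous_mer : Continuous (mer : Sp (k + 2) → ℝ × ℝ) := by
  unfold mer; fun_prop

/-- Axisymmetric integration. -/
theorem mer_lintegral {F : ℝ × ℝ → ENNReal} (hF : Measurable F) :
    ∫⁻ z : Sp (k + 2), F (mer z) =
      ENNReal.ofReal (sphereArea k) * ∫⁻ p in upper, F p * ENNReal.ofReal (p.2 ^ k) := by
  have hG : Measurable fun z : Sp (k + 2) => F (mer z) := hF.comp continuous_mer.measurable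
  have hG' : Measurable fun x : Fin (k + 2) → ℝ => F (mer (WithLp.toLp 2 x : Sp (k + 2))) :=
    hG.comp (by fun_prop)
  let e := MeasurableEquiv.piFinSuccAbove (fun _ : Fin (k + 2) => ℝ) 0
  have he := (volume_preserving_piFinSuccAbove (fun _ : Fin (k + 2) => ℝ) 0).symm
  rw [← (PiLp.volume_preserving_toLp (Fin (k + 2))).lintegral_comp hG, ← he.lintegral_comp hG',
    Measure.volume_eq_prod, lintegral_prod _ (by exact (hG'.comp e.symm.measurable).aemeasurable)]
  have key : ∀ (a : ℝ) (v : Fin (k + 1) → ℝ), mer (WithLp.toLp 2 (e.symm (a, v)) : Sp (k + 2))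
      = (a, ‖(WithLp.toLp 2 v : Sp (k + 1))‖) := by
    intro a v
    have he : e.symm (a, v) = Fin.cons a v := by
      funext i
      refine Fin.cases ?_ (fun j => ?_) i <;> simp [e, MeasurableEquiv.piFinSuccAbove_symm_apply]
    rw [he, mer, EuclideanSpace.norm_sq_eq, EuclideanSpace.norm_eq, Fin.sum_univ_succ]
    simp [norm_eq_abs]
  have hin : ∀ a : ℝ, ∫⁻ v : Fin (k + 1) → ℝ, F (mer (WithLp.toLp 2 (e.symm (a, v)) : Sp (k + 2)))
      = ENNReal.ofReal (sphereArea k) * ∫⁻ r in Ioi 0, F (a, r) * ENNReal.ofReal (r ^ k) := by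
    intro a
    have hFa : Measurable fun r => F (a, r) := hF.comp measurable_prodMk_left
    simp only [key]
    rw [(PiLp.volume_preserving_toLp (Fin (k + 1))).lintegral_comp
      (f := fun y : Sp (k + 1) => F (a, ‖y‖)) (hFa.comp measurable_norm), radial_lintegral hFa]
  have hm : Measurable fun p : ℝ × ℝ => F p * ENNReal.ofReal (p.2 ^ k) := hF.mul (by fun_prop)
  refine Eq.trans (lintegral_congr hin) ?_
  rw [lintegral_const_mul _ hm.lintegral_prod_right', upper, Measure.volume_eq_prod,
    ← Measure.prod_restrict, Measure.restrict_univ, lintegral_prod _ hm.aemeasurable]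

theorem mem_upper_iff (hC : Chart h Q Jd E) (q : ℝ × ℝ) : Q q ∈ upper ↔ q ∈ upper := by
  have hE : 0 < E q := one_pos.trans_le (hC.E_one q)
  simp [upper, hC.snd q, mul_pos_iff_of_pos_right hE]

theorem continuous_dens (hC : Chart h Q Jd E) : Continuous (dens k Jd E) := by
  have := hC.E_cont
  have := hC.J_cont
  unfold dens; fun_prop

/-- The volume of a body of revolution in chart coordinates. -/
theorem gvol_mer (hM : Met h) (hC : Chart h Q Jd E) {A : Set (ℝ × ℝ)} (hA : IsCompact A) :
    (gvol h).real {z : Sp (k + 2) | mer z ∈ Q '' A} = sphereArea k * mass k Jd E A := by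
  have hh : Continuous h := hM.smooth.continuous
  have hB : MeasurableSet (Q '' A) := (hA.image Q.continuous).measurableSet
  have hS : MeasurableSet {z : Sp (k + 2) | mer z ∈ Q '' A} := continuous_mer.measurable hB
  have hU : MeasurableSet upper := MeasurableSet.univ.prod measurableSet_Ioi
  set F : ℝ × ℝ → ENNReal := (Q '' A).indicator fun p => ENNReal.ofReal (h (p.1 ^ 2 + p.2 ^ 2))
    with hFdef
  have hF : Measurable F := (by fun_prop : Measurable fun p : ℝ × ℝ =>
    ENNReal.ofReal (h (p.1 ^ 2 + p.2 ^ 2))).indicator hB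
  have hS' : gvol h {z : Sp (k + 2) | mer z ∈ Q '' A} = ∫⁻ z : Sp (k + 2), F (mer z) := by
    rw [gvol, withDensity_apply _ hS, ← lintegral_indicator hS]
    refine lintegral_congr fun z => ?_
    simp only [hFdef, indicator, mem_ofPred_eq, mer_normSq]
  have hset : Q '' A ∩ upper = Q '' (A ∩ upper) := by
    ext p
    constructor
    · rintro ⟨⟨q, hq, rfl⟩, hp⟩
      exact ⟨q, ⟨hq, (mem_upper_iff hC q).1 hp⟩, rfl⟩
    · rintro ⟨q, ⟨hq, hu⟩, rfl⟩
      exact ⟨⟨q, hq, rfl⟩, (mem_upper_iff hC q).2 hu⟩
  have hAU : MeasurableSet (A ∩ upper) := hA.measurableSet.inter hU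
  have hI : ∫⁻ p in upper, F p * ENNReal.ofReal (p.2 ^ k)
      = ∫⁻ q in A ∩ upper, ENNReal.ofReal (dens k Jd E q) := by
    have e1 : ∀ p : ℝ × ℝ, F p * ENNReal.ofReal (p.2 ^ k) = (Q '' A).indicator
        (fun p => ENNReal.ofReal (h (p.1 ^ 2 + p.2 ^ 2)) * ENNReal.ofReal (p.2 ^ k)) p :=
      fun p => (indicator_mul_left (Q '' A) _ fun p : ℝ × ℝ => ENNReal.ofReal (p.2 ^ k)).symm
    simp only [e1]
    rw [lintegral_indicator hB, Measure.restrict_restrict hB, hset,
      lintegral_image_eq_lintegral_abs_det_fderiv_mul volume hAU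
        (fun q _ => ((hC.smooth.differentiable one_ne_zero) q).hasFDerivAt.hasFDerivWithinAt)
        Q.injective.injOn]
    refine setLIntegral_congr_fun hAU fun q _ => ?_
    rw [← mul_assoc, ← ENNReal.ofReal_mul (abs_nonneg _),
      ← ENNReal.ofReal_mul (mul_nonneg (abs_nonneg _) (hM.pos _ (by positivity)).le), dens,
      mul_comm |_|, hC.det, hC.snd]
  rw [measureReal_def, hS', mer_lintegral hF, hI, ENNReal.toReal_mul,
    ENNReal.toReal_ofReal sphereArea_pos.le, mass, integral_eq_lintegral_of_nonneg_ae]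
  · refine (ae_restrict_iff' hAU).2 (Eventually.of_forall fun q hq => ?_)
    have h0 : (0 : ℝ) ≤ q.2 := (show (0 : ℝ) < q.2 from hq.2.2).le
    exact mul_nonneg (hC.J_pos q).le (pow_nonneg (mul_nonneg h0 (zero_le_one.trans (hC.E_one q))) _)
  · exact (continuous_dens hC).aestronglyMeasurable

/-- The volume of the unit ball in meridian coordinates. -/
theorem omega_eq : omega (k + 2) = sphereArea k * ballConst k := by
  set D : Set (ℝ × ℝ) := {p | p.1 ^ 2 + p.2 ^ 2 ≤ 1}
  have hD : MeasurableSet D := (isClosed_le (by fun_prop) continuous_const).measurableSet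
  set φ : ℝ → ℝ := fun a => √(1 - a ^ 2) ^ (k + 1) / (k + 1) with hφ
  have hball : volume (closedBall (0 : Sp (k + 2)) 1)
      = ∫⁻ z : Sp (k + 2), D.indicator 1 (mer z) := by
    rw [← lintegral_indicator_one measurableSet_closedBall]
    refine lintegral_congr fun z => ?_
    simp only [indicator, D, mem_ofPred_eq, mer_normSq, mem_closedBall, dist_zero_right,
      sq_le_one_iff₀ (norm_nonneg z), Pi.one_apply]
  have hslice : ∀ a : ℝ, ∫⁻ r in Ioi 0, D.indicator 1 (a, r) * ENNReal.ofReal (r ^ k)
      = ENNReal.ofReal (φ a) := by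
    intro a
    have e : ∀ r ∈ Ioi (0 : ℝ), D.indicator 1 (a, r) * ENNReal.ofReal (r ^ k)
        = (Iic √(1 - a ^ 2)).indicator (fun r => ENNReal.ofReal (r ^ k)) r := by
      intro r hr
      simp only [indicator, D, mem_ofPred_eq, mem_Iic, Pi.one_apply, le_sqrt' hr]
      split_ifs <;> first | (exfalso; linarith) | simp
    rw [setLIntegral_congr_fun measurableSet_Ioi e, lintegral_indicator measurableSet_Iic,
      Measure.restrict_restrict measurableSet_Iic, Iic_inter_Ioi,
      ← ofReal_integral_eq_lintegral_ofReal, ← intervalIntegral.integral_of_le (sqrt_nonneg _),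
      integral_pow]
    · simp [φ]
    · exact (intervalIntegral.intervalIntegrable_pow k).1
    · exact (ae_restrict_iff' measurableSet_Ioc).2
        (Eventually.of_forall fun r hr => pow_nonneg hr.1.le k)
  have hsupp : ∀ a : ℝ, a ∉ Icc (-1 : ℝ) 1 → φ a = 0 := by
    intro a ha
    have : 1 - a ^ 2 ≤ 0 := by
      rcases not_and_or.1 ha with h1 | h1 <;> nlinarith [not_le.1 h1]
    simp [φ, sqrt_eq_zero_of_nonpos this]
  have hφc : Continuous φ := by fun_prop
  have hm : Measurable fun p : ℝ × ℝ => D.indicator 1 p * ENNReal.ofReal (p.2 ^ k) :=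
    (measurable_one.indicator hD).mul (by fun_prop)
  have hI : ∫⁻ a : ℝ, ENNReal.ofReal (φ a) = ENNReal.ofReal (ballConst k) := by
    have hs : φ = (Icc (-1 : ℝ) 1).indicator φ := by
      funext a
      by_cases ha : a ∈ Icc (-1 : ℝ) 1
      · rw [indicator_of_mem ha]
      · rw [indicator_of_notMem ha, hsupp a ha]
    rw [← ofReal_integral_eq_lintegral_ofReal, hs, integral_indicator measurableSet_Icc,
      integral_Icc_eq_integral_Ioc, ← intervalIntegral.integral_of_le (by norm_num),
      intervalIntegral.integral_div, ballConst]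
    · rw [hs]
      exact (hφc.integrableOn_Icc).integrable_indicator measurableSet_Icc
    · exact Eventually.of_forall fun a => by simp only [φ]; positivity
  rw [omega, measureReal_def, hball, mer_lintegral (measurable_one.indicator hD), upper,
    Measure.volume_eq_prod, ← Measure.prod_restrict, Measure.restrict_univ,
    lintegral_prod _ hm.aemeasurable]
  simp only [hslice]
  rw [hI, ENNReal.toReal_mul, ENNReal.toReal_ofReal sphereArea_pos.le, ENNReal.toReal_ofReal]
  exact div_nonneg (intervalIntegral.integral_nonneg (by norm_num) fun z _ =>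
    pow_nonneg (sqrt_nonneg _) _) (by positivity)

end

end Vale.Agent.P219.Sharp
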