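import Vale.Agent.P219.Sharp.Refl

/-!
# P219: cap symmetrisation by polarisation and Hausdorff compactness
-/

namespace Vale.Agent.P219.Sharp

open MeasureTheory Metric Set Filter TopologicalSpace
open scoped RealInnerProductSpace Topology

noncomputable section

variable {n : ℕ} {h : ℝ → ℝ}

/-- Thickenings of a compact set shrink to the thickening. -/
theorem tendsto_gvol_thick (hM : Met h) {K : Set (Sp n)} (hK : IsCompact K) (δ : ℝ) :
    Tendsto (fun r => gvol h (thick h r K)) (𝓝[>] δ) (𝓝 (gvol h (thick h δ K))) := by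
  have hc := continuous_gdist (n := n) hM
  have e : thick h δ K = ⋂ r > δ, thick h r K := by
    ext x
    simp only [mem_iInter]
    refine ⟨fun ⟨y, hy, hd⟩ r hr => ⟨y, hy, hd.trans hr.le⟩, fun hx => ?_⟩
    obtain ⟨y₀, hy₀, -⟩ := hx (δ + 1) (lt_add_one δ)
    obtain ⟨y, hy, hmin⟩ := hK.exists_isMinOn ⟨y₀, hy₀⟩
      (f := fun y => gdist h x y) (hc.comp (continuous_const.prodMk continuous_id)).continuousOn
    refine ⟨y, hy, le_of_forall_gt_imp_ge_of_dense fun r hr => ?_⟩
    obtain ⟨y', hy', hd⟩ := hx r hr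
    exact (hmin hy').trans hd
  conv_rhs => rw [e]
  exact tendsto_measure_biInter_gt
    (fun r _ => (isCompact_thick hM hK r).measurableSet.nullMeasurableSet)
    (fun i j _ hij x ⟨y, hy, hd⟩ => ⟨y, hy, hd.trans hij⟩)
    ⟨δ + 1, lt_add_one δ, (gvol_lt_top hM (isCompact_thick hM hK _)).ne⟩

theorem upperSemicont_measure (μ : Measure (Sp n)) [IsLocallyFiniteMeasure μ] :
    UpperSemicontinuous fun L : NonemptyCompacts (Sp n) => μ (L : Set (Sp n)) := by
  intro L c hc
  have hfin : ∃ r > 0, μ (cthickening r (L : Set (Sp n))) ≠ ⊤ :=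
    ⟨1, one_pos, (L.isCompact.cthickening.measure_lt_top).ne⟩
  have hlt := (tendsto_measure_cthickening_of_isClosed hfin L.isCompact.isClosed).eventually
    (eventually_lt_nhds hc)
  obtain ⟨η, hη, hlt'⟩ := Metric.eventually_nhds_iff.1 hlt
  have hη2 := hlt' (show dist (η / 2) 0 < η by
    rw [Real.dist_0_eq_abs, abs_of_pos (half_pos hη)]; linarith)
  filter_upwards [ball_mem_nhds L (half_pos hη)] with L' hL'
  refine lt_of_le_of_lt (measure_mono fun x hx => ?_) hη2
  rw [mem_ball, NonemptyCompacts.dist_eq] at hL'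
  obtain ⟨y, hy, hxy⟩ := exists_dist_lt_of_hausdorffDist_lt hx hL'
    (hausdorffEDist_ne_top_of_nonempty_of_bounded L'.nonempty L.nonempty L'.isCompact.isBounded
      L.isCompact.isBounded)
  exact mem_cthickening_of_dist_le x y _ _ hy hxy.le

/-- The points near which a set has positive volume. -/
def supp (K : Set (Sp n)) : Set (Sp n) := {x ∈ K | ∀ r > 0, 0 < volume (K ∩ ball x r)}

theorem isClosed_supp {K : Set (Sp n)} (hK : IsClosed K) : IsClosed (supp K) := by
  refine isClosed_of_closure_subset fun x hx => 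
    ⟨hK.closure_subset (closure_mono (fun z hz => hz.1) hx),
    fun r hr => ?_⟩
  obtain ⟨z, hz, hxz⟩ := Metric.mem_closure_iff.1 hx (r / 2) (half_pos hr)
  refine (hz.2 (r / 2) (half_pos hr)).trans_le (measure_mono (inter_subset_inter_right _ ?_))
  exact ball_subset_ball' (by linarith [dist_comm x z])

theorem volume_diff_supp (K : Set (Sp n)) : volume (K \ supp K) = 0 := by
  refine measure_null_of_locally_null _ fun x hx => ?_
  simp only [supp, Set.mem_sdiff, mem_ofPred_eq, not_and, not_forall, not_lt, nonpos_iff_eq_zero]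
    at hx
  obtain ⟨r, hr, h0⟩ := hx.2 hx.1
  exact ⟨(K \ supp K) ∩ ball x r, inter_mem_nhdsWithin _ (ball_mem_nhds x hr),
    measure_mono_null (inter_subset_inter_left _ sdiff_subset) h0⟩

/-- The weight favouring the direction `e`. -/
def wt (h : ℝ → ℝ) (e : Sp n) : Measure (Sp n) :=
  volume.withDensity fun z => ENNReal.ofReal (h (‖z‖ ^ 2) * (‖z‖ + ⟪e, z⟫))

theorem wt_dens_cont (hM : Met h) (e : Sp n) :
    Continuous fun z : Sp n => h (‖z‖ ^ 2) * (‖z‖ + ⟪e, z⟫) := by
  have := hM.cont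
  have hi : Continuous fun z : Sp n => ⟪e, z⟫ := continuous_const.inner continuous_id
  fun_prop

theorem wt_lt_top (hM : Met h) (e : Sp n) {L : Set (Sp n)} (hL : IsCompact L) :
    wt h e L < ⊤ := by
  obtain ⟨C, hC⟩ := hL.exists_bound_of_continuousOn (wt_dens_cont hM e).continuousOn
  rw [wt, withDensity_apply _ hL.measurableSet]
  refine setLIntegral_lt_top_of_le_nnreal hL.measure_lt_top.ne ⟨C.toNNReal, fun z hz => ?_⟩
  exact ENNReal.ofReal_le_ofReal ((le_abs_self _).trans (hC z hz))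

theorem exists_max (hM : Met h) {K : Set (Sp n)} (hK : IsCompact K) (hne : K.Nonempty) {R : ℝ}
    (hR : K ⊆ closedBall 0 R) (e : Sp n) :
    ∃ L : Set (Sp n), IsCompact L ∧ L ⊆ closedBall 0 R ∧ gvol h K ≤ gvol h L ∧
      (∀ δ, 0 ≤ δ → gvol h (thick h δ L) ≤ gvol h (thick h δ K)) ∧
      ∀ a : Sp n, ‖a‖ = 1 → wt h e (pol a L) ≤ wt h e L := by
  have : IsLocallyFiniteMeasure (gvol h : Measure (Sp n)) :=
    ⟨fun x => ⟨closedBall x 1, closedBall_mem_nhds x one_pos,
      gvol_lt_top hM (isCompact_closedBall x 1)⟩⟩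
  have : IsLocallyFiniteMeasure (wt h e) :=
    ⟨fun x => ⟨closedBall x 1, closedBall_mem_nhds x one_pos,
      wt_lt_top hM e (isCompact_closedBall x 1)⟩⟩
  let F : Set (NonemptyCompacts (Sp n)) := {L | (L : Set (Sp n)) ⊆ closedBall 0 R ∧
    gvol h K ≤ gvol h (L : Set (Sp n)) ∧
    ∀ δ, 0 ≤ δ → gvol h (thick h δ (L : Set (Sp n))) ≤ gvol h (thick h δ K)}
  have hball := NonemptyCompacts.isCompact_subsets_of_isCompact (isCompact_closedBall (0 : Sp n) R)
  have hFc : IsCompact F := by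
    refine hball.of_isClosed_subset (isClosed_of_closure_subset fun L hL =>
      ⟨?_, ?_, fun δ hδ => ?_⟩)
      fun L hL => hL.1
    · exact closure_minimal (fun L hL => hL.1) hball.isClosed hL
    · exact closure_minimal (fun L (hL : L ∈ F) => hL.2.1)
        ((upperSemicont_measure (gvol h)).isClosed_preimage _) hL
    · refine ge_of_tendsto (tendsto_gvol_thick hM hK δ) ?_
      filter_upwards [self_mem_nhdsWithin] with r (hr : δ < r)
      obtain ⟨L', hL', hd⟩ := Metric.mem_closure_iff.1 hL ((r - δ) / 2) (by linarith)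
      have hsub : thick h δ (L : Set (Sp n)) ⊆ thick h r (L' : Set (Sp n)) := by
        rintro x ⟨y, hy, hxy⟩
        rw [NonemptyCompacts.dist_eq] at hd
        obtain ⟨y', hy', hyy⟩ := exists_dist_lt_of_hausdorffDist_lt hy hd
          (hausdorffEDist_ne_top_of_nonempty_of_bounded L.nonempty L'.nonempty
            L.isCompact.isBounded L'.isCompact.isBounded)
        refine ⟨y', hy', (gdist_triangle hM x y y').trans ?_⟩
        have := gdist_le_norm hM y y'
        rw [dist_eq_norm'] at hyy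
        linarith
      exact (measure_mono hsub).trans (hL'.2.2 r (by linarith))
  obtain ⟨k₀, hk₀⟩ : ∃ k : NonemptyCompacts (Sp n), (k : Set (Sp n)) = K :=
    ⟨⟨⟨K, hK⟩, hne⟩, rfl⟩
  obtain ⟨L, hLF, hmax⟩ := UpperSemicontinuousOn.exists_isMaxOn
    (⟨k₀, by rw [hk₀]; exact hR, by rw [hk₀], fun _ _ => by rw [hk₀]⟩ : F.Nonempty) hFc
    ((upperSemicont_measure (wt h e)).upperSemicontinuousOn F)
  have hLc : IsCompact (L : Set (Sp n)) := L.isCompact
  refine ⟨L, hLc, hLF.1, hLF.2.1, hLF.2.2, fun a ha => ?_⟩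
  obtain ⟨P, hP⟩ : ∃ k : NonemptyCompacts (Sp n), (k : Set (Sp n)) = pol a L :=
    ⟨⟨⟨pol a L, isCompact_pol a hLc⟩, pol_nonempty ha L.nonempty⟩, rfl⟩
  have hPF : P ∈ F := by
    refine ⟨by rw [hP]; exact pol_subset_ball a hLF.1,
      by rw [hP, gvol_pol hM ha hLc]; exact hLF.2.1, fun δ hδ => ?_⟩
    rw [hP]
    refine (measure_mono (thick_pol hM ha (L : Set (Sp n)) δ)).trans ?_
    rw [gvol_pol hM ha (isCompact_thick hM hLc δ)]
    exact hLF.2.2 δ hδ
  rw [← hP]
  exact hmax hPF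

theorem gain_null (hM : Met h) {e a : Sp n} (he : ‖e‖ = 1) (ha : ‖a‖ = 1) (hae : 0 < ⟪a, e⟫)
    {L : Set (Sp n)} (hLc : IsCompact L) (hle : wt h e (pol a L) ≤ wt h e L) :
    volume (gain a L) = 0 := by
  have hm := measurableSet_gain a hLc.measurableSet
  have hsub : refl a ⁻¹' gain a L ⊆ L := fun z hz => by simpa [refl_refl] using hz.2.2
  have heq := measure_pol (wt h e) ha hLc.measurableSet
  have h1 : wt h e (gain a L) ≤ wt h e (refl a ⁻¹' gain a L) := by
    refine (ENNReal.add_le_add_iff_left (wt_lt_top hM e hLc).ne).1 ?_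
    rw [← heq]; gcongr
  have hmeas : Measurable fun z : Sp n => ENNReal.ofReal (h (‖z‖ ^ 2) * (‖z‖ + ⟪e, z⟫)) :=
    ENNReal.measurable_ofReal.comp (wt_dens_cont hM e).measurable
  have hfin := (measure_mono hsub).trans_lt (wt_lt_top hM e hLc)
  rw [wt, withDensity_apply _ ((refl a).continuous.measurable hm), lintegral_refl a hmeas _ hm]
    at hfin
  rw [wt, withDensity_apply _ hm, withDensity_apply _ ((refl a).continuous.measurable hm),
    lintegral_refl a hmeas _ hm] at h1
  simp only [LinearIsometryEquiv.norm_map] at h1 hfin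
  by_contra hv
  refine h1.not_gt (setLIntegral_strict_mono hm hv hmeas hfin.ne (ae_of_all _ fun z hz => ?_))
  have hh := hM.pos _ (sq_nonneg ‖z‖)
  have hgap : 0 < 2 * ⟪a, z⟫ * ⟪e, a⟫ := by
    rw [real_inner_comm a e]; exact mul_pos (mul_pos two_pos hz.1) hae
  have hnn : 0 ≤ ‖z‖ + ⟪e, refl a z⟫ := by
    have := abs_real_inner_le_norm e (refl a z)
    rw [he, one_mul, LinearIsometryEquiv.norm_map] at this
    linarith [neg_abs_le ⟪e, refl a z⟫]
  rw [inner_refl ha] at hnn ⊢
  exact (ENNReal.ofReal_lt_ofReal_iff (mul_pos hh (by linarith))).2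
    (mul_lt_mul_of_pos_left (by linarith) hh)

theorem supp_move {L : Set (Sp n)} (hLc : IsCompact L) {e : Sp n}
    (hgain : ∀ a : Sp n, ‖a‖ = 1 → 0 < ⟪a, e⟫ → volume (gain a L) = 0) {x y : Sp n}
    (hn : ‖x‖ = ‖y‖) (hlt : ⟪e, x⟫ < ⟪e, y⟫) (hx : x ∈ supp L) : y ∈ supp L := by
  have hne' : y - x ≠ 0 := sub_ne_zero.2 fun e' => hlt.ne (by rw [e'])
  set a := ‖y - x‖⁻¹ • (y - x) with had
  have ha : ‖a‖ = 1 := by simp [had, norm_smul, norm_ne_zero_iff.2 hne']
  have hae : 0 < ⟪a, e⟫ := by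
    rw [had, real_inner_smul_left, real_inner_comm, inner_sub_right]
    exact mul_pos (inv_pos.2 (norm_pos_iff.2 hne')) (by linarith)
  have hxy : refl a x = y := by
    have hs : (ℝ ∙ a) = ℝ ∙ (x - y) := by
      rw [had, ← neg_sub x y, smul_neg, ← neg_smul]
      exact Submodule.span_singleton_smul_eq (IsUnit.mk0 _ (neg_ne_zero.2
        (inv_ne_zero (norm_ne_zero_iff.2 (neg_ne_zero.2
          (sub_ne_zero.2 fun e' => hlt.ne (by rw [e']))))))) _
    have := Submodule.reflection_sub hn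
    unfold refl
    simp only [hs]
    exact this
  have hay : 0 < ⟪a, y⟫ := by
    have e1 : ⟪a, y⟫ = -⟪a, x⟫ := by rw [← hxy, inner_refl_self ha]
    have e2 : ⟪a, y⟫ - ⟪a, x⟫ = ‖y - x‖ := by
      rw [← inner_sub_right, had, real_inner_smul_left, real_inner_self_eq_norm_sq]
      field_simp [norm_ne_zero_iff.2 hne']
    linarith [norm_pos_iff.2 hne']
  have pos : ∀ r > 0, 0 < volume (L ∩ ball y r) := by
    intro r hr
    obtain ⟨r₀, hr₀, hb⟩ := Metric.isOpen_iff.1
      (isOpen_lt continuous_const (continuous_const.inner continuous_id :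
        Continuous fun z : Sp n => ⟪a, z⟫)) y hay
    set ρ := min r r₀
    have hρ : 0 < ρ := lt_min hr hr₀
    have hsub : refl a ⁻¹' (L ∩ ball x ρ) ⊆ (L ∩ ball y r) ∪ gain a L := by
      rintro z ⟨hz, hzb⟩
      have hzy : z ∈ ball y ρ := by
        rw [mem_ball, ← hxy, ← (refl a).dist_map, refl_refl]
        exact hzb
      by_cases hzL : z ∈ L
      · exact Or.inl ⟨hzL, ball_subset_ball (min_le_left _ _) hzy⟩
      · exact Or.inr ⟨hb (ball_subset_ball (min_le_right _ _) hzy), hzL, hz⟩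
    refine (hx.2 ρ hρ).trans_le ?_
    rw [← (refl a).measurePreserving.measure_preimage
      (hLc.measurableSet.inter measurableSet_ball).nullMeasurableSet]
    exact (measure_mono hsub).trans ((measure_union_le _ _).trans
      (by rw [hgain a ha hae, add_zero]))
  refine ⟨hLc.isClosed.closure_subset (Metric.mem_closure_iff.2 fun r hr => ?_), pos⟩
  obtain ⟨z, hz, hzr⟩ := nonempty_of_measure_ne_zero (pos r hr).ne'
  exact ⟨z, hz, by rw [dist_comm]; exact hzr⟩

theorem capSym_supp {L : Set (Sp n)} (hLc : IsCompact L) {e : Sp n} (he : ‖e‖ = 1)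
    (hgain : ∀ a : Sp n, ‖a‖ = 1 → 0 < ⟪a, e⟫ → volume (gain a L) = 0) : CapSym e (supp L) := by
  intro x y hn hle hx
  rcases hle.lt_or_eq with hlt | heq
  · exact supp_move hLc hgain hn hlt hx
  set c := ⟪e, y⟫ with hc
  set p := y - c • e with hp
  have hep : ⟪e, p⟫ = 0 := by
    rw [hp, inner_sub_right, inner_smul_right, real_inner_self_eq_norm_sq, he]; ring
  have hsq : ∀ α β : ℝ, ‖α • e + β • p‖ ^ 2 = α ^ 2 + β ^ 2 * ‖p‖ ^ 2 := by
    intro α β
    rw [norm_add_sq_real, norm_smul, norm_smul, real_inner_smul_left, real_inner_smul_right, hep,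
      he, Real.norm_eq_abs, Real.norm_eq_abs, mul_one, sq_abs, mul_pow, sq_abs]
    ring
  have hyp : y = c • e + (1 : ℝ) • p := by rw [hp, one_smul]; abel
  rcases eq_or_ne p 0 with hp0 | hp0
  · -- `y` is a multiple of `e`
    have hy : y = c • e := sub_eq_zero.1 hp0
    have hxx : ‖x - c • e‖ ^ 2 = 0 := by
      rw [norm_sub_sq_real, inner_smul_right, real_inner_comm, heq, hn, norm_smul, he,
        Real.norm_eq_abs, mul_one, sq_abs]
      conv_lhs => rw [hy]
      rw [norm_smul, he, Real.norm_eq_abs, mul_one, sq_abs]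
      ring
    rwa [hy, ← sub_eq_zero.1 (norm_eq_zero.1 ((pow_eq_zero_iff two_ne_zero).1 hxx))]
  have hQ : 0 < ‖p‖ ^ 2 := by positivity
  let β : ℝ → ℝ := fun t => √(1 - ((c + t) ^ 2 - c ^ 2) / ‖p‖ ^ 2)
  let Y : ℝ → Sp n := fun t => (c + t) • e + β t • p
  have hY0 : Y 0 = y := by
    conv_rhs => rw [hyp]
    simp [Y, β]
  have hYc : Tendsto Y (𝓝[>] 0) (𝓝 y) := by
    rw [← hY0]
    exact ((by fun_prop : Continuous Y).tendsto 0).mono_left nhdsWithin_le_nhds
  have hbd : ∀ᶠ t in 𝓝[>] (0 : ℝ), 0 ≤ 1 - ((c + t) ^ 2 - c ^ 2) / ‖p‖ ^ 2 := by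
    have hcont : Continuous fun t : ℝ => 1 - ((c + t) ^ 2 - c ^ 2) / ‖p‖ ^ 2 := by fun_prop
    exact nhdsWithin_le_nhds ((hcont.tendsto' 0 1 (by simp)).eventually
      (eventually_ge_nhds (by norm_num)))
  refine (isClosed_supp hLc.isClosed).mem_of_tendsto hYc ?_
  filter_upwards [hbd, self_mem_nhdsWithin] with t ht (ht0 : 0 < t)
  refine supp_move hLc hgain ?_ ?_ hx
  · rw [hn, ← sq_eq_sq₀ (norm_nonneg _) (norm_nonneg _), hsq, Real.sq_sqrt ht]
    conv_lhs => rw [hyp, hsq]
    field_simp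
    ring
  · simp only [Y, inner_add_right, inner_smul_right, hep, real_inner_self_eq_norm_sq, he, heq]
    linarith

/-- Cap symmetric competitors. -/
theorem exists_cap (hM : Met h) {K : Set (Sp n)} (hK : IsCompact K) {R : ℝ}
    (hR : K ⊆ closedBall 0 R) {e : Sp n} (he : ‖e‖ = 1) :
    ∃ K', IsCompact K' ∧ K' ⊆ closedBall 0 R ∧ CapSym e K' ∧ gvol h K ≤ gvol h K' ∧
      ∀ δ, 0 ≤ δ → gvol h (thick h δ K') ≤ gvol h (thick h δ K) := by
  rcases eq_or_ne (gvol h K) 0 with h0 | h0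
  · exact ⟨∅, isCompact_empty, empty_subset _, fun _ _ _ _ h => h.elim, h0.le.trans zero_le,
      fun δ _ => measure_mono fun x ⟨_, hy, _⟩ => hy.elim⟩
  have hne : K.Nonempty := nonempty_iff_ne_empty.2 fun e => h0 (by simp [e])
  obtain ⟨L, hLc, hLR, hLV, hLT, hmax⟩ := exists_max hM hK hne hR e
  have hsupp : supp L ⊆ L := fun z hz => hz.1
  refine ⟨supp L, hLc.of_isClosed_subset (isClosed_supp hLc.isClosed) hsupp, hsupp.trans hLR,
    capSym_supp hLc he fun a ha hae => gain_null hM he ha hae hLc (hmax a ha), ?_,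
    fun δ hδ => (measure_mono (show thick h δ (supp L) ⊆ thick h δ L from
      fun x ⟨y, hy, hd⟩ => ⟨y, hsupp hy, hd⟩)).trans (hLT δ hδ)⟩
  have hnull : gvol h (L \ supp L) = 0 :=
    withDensity_absolutelyContinuous volume _ (volume_diff_supp L)
  refine hLV.trans ((measure_mono (subset_sdiff_union _ (supp L))).trans ?_)
  refine (measure_union_le _ _).trans ?_
  rw [hnull, zero_add]

end

end Vale.Agent.P219.Sharp
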