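import Vale.Agent.P219.Sharp.Defs

/-!
# P219: monotone transport in the chart

The two stage triangular map from the chart region to the half disc and the resulting first order
Brunn-Minkowski inequality. Only monotonicity of the two one-variable maps is used.
-/

namespace Vale.Agent.P219.Sharp

open MeasureTheory Metric Set Filter Real
open scoped ENNReal Topology

noncomputable section

/-- Change of variables inequality for a monotone function. -/
theorem mono_cov {G : ℝ → ℝ} (hG : Monotone G) (u : ℝ → ℝ≥0∞) :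
    ∫⁻ x, ENNReal.ofReal (deriv G x) * u (G x) ≤ ∫⁻ y, u y := by
  have hs : MeasurableSet {x | DifferentiableAt ℝ G x} := measurableSet_of_differentiableAt ℝ G
  have h := lintegral_image_eq_lintegral_deriv_mul_of_monotoneOn hs
    (f' := deriv G) (fun x hx => (DifferentiableAt.hasDerivAt hx).hasDerivWithinAt)
    (hG.monotoneOn _) u
  have e : ({x | DifferentiableAt ℝ G x} : Set ℝ) =ᵐ[volume] (univ : Set ℝ) :=
    eventuallyEq_univ.2 hG.ae_differentiableAt
  rw [setLIntegral_congr e, Measure.restrict_univ] at h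
  exact h.symm.trans_le (setLIntegral_le_lintegral _ _)

/-- The inequality of arithmetic and geometric means in the form used for the Jacobian. -/
theorem jacobian_amgm {k : ℕ} {ε g A b d : ℝ} (hε : 0 < ε) (hg : 0 ≤ g) (hA : 0 ≤ A)
    (hb : 0 ≤ b) (hd : 0 ≤ d) (h : g ^ (k + 2) = A * b * d ^ k) :
    (1 + ε * g) ^ (k + 2) ≤ (1 + ε * A) * (1 + ε * b) * (1 + ε * d) ^ k := by
  set n : ℕ := k + 2 with hn
  have hn0 : (n : ℝ) ≠ 0 := by positivity
  set w : ℝ := (n : ℝ)⁻¹ with hw
  have hw0 : 0 ≤ w := by positivity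
  have hsum : w + w + k * w = 1 := by
    rw [hw]
    field_simp
    rw [hn]
    push_cast
    ring
  have P1 : 0 < 1 + ε * A := by positivity
  have P2 : 0 < 1 + ε * b := by positivity
  have P3 : 0 < 1 + ε * d := by positivity
  set Z := (1 + ε * A) ^ w * (1 + ε * b) ^ w * (1 + ε * d) ^ ((k : ℝ) * w) with hZ
  have hZ0 : 0 < Z := by positivity
  have hkw : 0 ≤ (k : ℝ) * w := by positivity
  have q1 := geom_mean_le_arith_mean3_weighted hw0 hw0 hkw (inv_nonneg.2 P1.le)
    (inv_nonneg.2 P2.le) (inv_nonneg.2 P3.le) hsum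
  have q2 := geom_mean_le_arith_mean3_weighted hw0 hw0 hkw (p₁ := ε * A / (1 + ε * A))
    (p₂ := ε * b / (1 + ε * b)) (p₃ := ε * d / (1 + ε * d)) (by positivity) (by positivity)
    (by positivity) hsum
  have e1 : (1 + ε * A)⁻¹ ^ w * (1 + ε * b)⁻¹ ^ w * (1 + ε * d)⁻¹ ^ ((k : ℝ) * w) = 1 / Z := by
    rw [Real.inv_rpow P1.le, Real.inv_rpow P2.le, Real.inv_rpow P3.le, hZ]
    field_simp
  have e2 : (ε * A / (1 + ε * A)) ^ w * (ε * b / (1 + ε * b)) ^ w *
      (ε * d / (1 + ε * d)) ^ ((k : ℝ) * w) = ε * g / Z := by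
    have hn' : n ≠ 0 := by omega
    have hg' : g = A ^ w * b ^ w * d ^ ((k : ℝ) * w) := by
      conv_lhs => rw [← Real.pow_rpow_inv_natCast hg hn', h]
      rw [← hw, Real.mul_rpow (by positivity) (by positivity), Real.mul_rpow hA hb,
        ← Real.rpow_natCast d k, ← Real.rpow_mul hd]
    rw [Real.div_rpow (by positivity) P1.le, Real.div_rpow (by positivity) P2.le,
      Real.div_rpow (by positivity) P3.le, Real.mul_rpow hε.le hA, Real.mul_rpow hε.le hb,
      Real.mul_rpow hε.le hd, hg', hZ]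
    have he : ε ^ w * ε ^ w * ε ^ ((k : ℝ) * w) = ε := by
      rw [← Real.rpow_add hε, ← Real.rpow_add hε, hsum, Real.rpow_one]
    calc _ = ε ^ w * ε ^ w * ε ^ ((k : ℝ) * w) * (A ^ w * b ^ w * d ^ ((k : ℝ) * w)) /
        ((1 + ε * A) ^ w * (1 + ε * b) ^ w * (1 + ε * d) ^ ((k : ℝ) * w)) := by ring
      _ = _ := by rw [he]
  have key : (1 + ε * g) / Z ≤ 1 := by
    rw [e1] at q1
    rw [e2] at q2
    calc (1 + ε * g) / Z = 1 / Z + ε * g / Z := by ring
      _ ≤ _ := add_le_add q1 q2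
      _ = w + w + k * w := by field_simp; ring
      _ = 1 := hsum
  rw [div_le_one hZ0] at key
  refine (pow_le_pow_left₀ (by positivity) key n).trans_eq ?_
  rw [hZ, mul_pow, mul_pow, hw, Real.rpow_inv_natCast_pow P1.le (by omega),
    Real.rpow_inv_natCast_pow P2.le (by omega), mul_comm (k : ℝ), Real.rpow_mul P3.le,
    Real.rpow_natCast, ← pow_mul, mul_comm k n, pow_mul,
    Real.rpow_inv_natCast_pow P3.le (by omega)]

variable {k : ℕ} {h : ℝ → ℝ} {Q : ℝ × ℝ ≃ₜ ℝ × ℝ} {Jd E : ℝ × ℝ → ℝ}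

/-- The mass of a compact set as a lower Lebesgue integral. -/
theorem ofReal_mass (hC : Chart h Q Jd E) {A : Set (ℝ × ℝ)} (hA : IsCompact A) :
    ENNReal.ofReal (mass k Jd E A) = ∫⁻ q in A ∩ upper, ENNReal.ofReal (dens k Jd E q) := by
  have hcont : Continuous (dens k Jd E) := hC.J_cont.mul ((continuous_snd.mul hC.E_cont).pow k)
  have hu : MeasurableSet (A ∩ upper) :=
    hA.measurableSet.inter (MeasurableSet.univ.prod measurableSet_Ioi)
  refine ofReal_integral_eq_lintegral_ofReal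
    ((hcont.continuousOn.integrableOn_compact hA).mono_set inter_subset_left) ?_
  refine (ae_restrict_iff' hu).2 (ae_of_all _ fun q hq => ?_)
  have h2 : 0 < q.2 := hq.2.2
  have := hC.J_pos q
  have := hC.E_one q
  show 0 ≤ Jd q * (q.2 * E q) ^ k
  positivity

/-- The angular coordinate of the transport and its defining identity. -/
theorem exists_tau (k : ℕ) {m : ℝ → ℝ} {V a0 : ℝ} (hm : LocallyIntegrable m volume)
    (hM0 : ∀ c, 0 ≤ ∫ x in a0..c, m x) (hMV : ∀ c, ∫ x in a0..c, m x ≤ V)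
    (hmono : Monotone fun c => ∫ x in a0..c, m x) (hV : 0 < V) :
    ∃ τ : ℝ → ℝ, Monotone τ ∧ (∀ c, τ c ∈ Icc (-1 : ℝ) 1) ∧ 0 < ballConst k ∧
      ∀ᵐ c, DifferentiableAt ℝ τ c ∧
        √(1 - τ c ^ 2) ^ (k + 1) * deriv τ c = (k + 1) * (ballConst k / V * m c) := by
  let f : ℝ → ℝ := fun z => √(1 - z ^ 2) ^ (k + 1) / (k + 1)
  have hf : Continuous f := by fun_prop
  let Θ : ℝ → ℝ := fun x => ∫ z in (-1 : ℝ)..x, f z
  have hd : ∀ x, HasDerivAt Θ (f x) x := fun x =>
    (hf.integral_hasStrictDerivAt (-1) x).hasDerivAt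
  have hΘc : Continuous Θ := continuous_iff_continuousAt.2 fun x => (hd x).continuousAt
  have hΘm : StrictMonoOn Θ (Icc (-1) 1) := by
    refine strictMonoOn_of_deriv_pos (convex_Icc _ _) hΘc.continuousOn fun x hx => ?_
    rw [interior_Icc] at hx
    rw [(hd x).deriv]
    have : 0 < √(1 - x ^ 2) := Real.sqrt_pos.2 (by nlinarith [hx.1, hx.2])
    positivity
  have h0 : Θ (-1) = 0 := intervalIntegral.integral_same
  have h1 : Θ 1 = ballConst k := by
    show ∫ z in (-1 : ℝ)..1, √(1 - z ^ 2) ^ (k + 1) / ((k : ℝ) + 1) = _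
    rw [intervalIntegral.integral_div, ballConst]
  have hκ : 0 < ballConst k := by
    have := hΘm (left_mem_Icc.2 (by norm_num)) (right_mem_Icc.2 (by norm_num))
      (show (-1 : ℝ) < 1 by norm_num)
    linarith
  have hex : ∀ c, ∃ x ∈ Icc (-1 : ℝ) 1, Θ x = ballConst k / V * ∫ x in a0..c, m x := fun c => by
    refine intermediate_value_Icc (by norm_num) hΘc.continuousOn ?_
    rw [h0, h1]
    refine ⟨mul_nonneg (by positivity) (hM0 c), ?_⟩
    rw [div_mul_eq_mul_div, div_le_iff₀ hV]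
    exact mul_le_mul_of_nonneg_left (hMV c) hκ.le
  choose τ hτ1 hτ2 using hex
  have hmon : Monotone τ := fun a b hab => (hΘm.le_iff_le (hτ1 a) (hτ1 b)).1 <| by
    rw [hτ2, hτ2]
    exact mul_le_mul_of_nonneg_left (hmono hab) (by positivity)
  refine ⟨τ, hmon, hτ1, hκ, ?_⟩
  filter_upwards [hmon.ae_differentiableAt, LocallyIntegrable.ae_hasDerivAt_integral hm] with c hc hM
  refine ⟨hc, ?_⟩
  have e1 : HasDerivAt (fun x => Θ (τ x)) (f (τ c) * deriv τ c) c :=
    (hd (τ c)).comp c hc.hasDerivAt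
  have e2 : HasDerivAt (fun x => Θ (τ x)) (ballConst k / V * m c) c := by
    simp only [hτ2]
    exact (hM a0).const_mul _
  rw [← e1.unique e2]
  simp only [f]
  field_simp

/-- The radial part of the transport along one fibre. -/
theorem exists_fibre (k : ℕ) {g : ℝ → ℝ} (hg : Integrable g volume) (hg0 : ∀ s, 0 ≤ g s)
    (hneg : ∀ s, s ≤ 0 → g s = 0) {m R : ℝ} (hm : ∫ s, g s = m) (hm0 : 0 < m) (hR : 0 ≤ R) :
    ∃ t : ℝ → ℝ, Monotone t ∧ (∀ s, 0 ≤ t s) ∧ (∀ s, t s ≤ R) ∧
      ∀ᵐ s, DifferentiableAt ℝ t s ∧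
        ((k : ℝ) + 1) * t s ^ k * deriv t s = R ^ (k + 1) * (g s / m) := by
  let P : ℝ → ℝ := fun s => ∫ x in (0 : ℝ)..s, g x
  have hPb : ∀ s, 0 ≤ P s ∧ P s ≤ m := fun s => by
    simp only [P, ← hm]
    rcases le_total 0 s with hs | hs
    · rw [intervalIntegral.integral_of_le hs]
      exact ⟨integral_nonneg hg0, setIntegral_le_integral hg (ae_of_all _ hg0)⟩
    · rw [intervalIntegral.integral_of_ge hs, setIntegral_eq_zero_of_forall_eq_zero
        (fun x hx => hneg x hx.2), neg_zero]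
      exact ⟨le_rfl, integral_nonneg hg0⟩
  have hPm : Monotone P := fun a b hab => by
    have := intervalIntegral.integral_add_adjacent_intervals
      (hg.intervalIntegrable (a := 0) (b := a)) (hg.intervalIntegrable (a := a) (b := b))
    have := intervalIntegral.integral_nonneg (μ := volume) hab fun x _ => hg0 x
    simp only [P]
    linarith
  let t : ℝ → ℝ := fun s => R * (P s / m) ^ (((k + 1 : ℕ) : ℝ)⁻¹)
  have htm : Monotone t := fun a b hab =>
    mul_le_mul_of_nonneg_left (Real.rpow_le_rpow (div_nonneg (hPb a).1 hm0.le)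
      (div_le_div_of_nonneg_right (hPm hab) hm0.le) (by positivity)) hR
  refine ⟨t, htm, fun s => mul_nonneg hR (Real.rpow_nonneg (div_nonneg (hPb s).1 hm0.le) _),
    fun s => mul_le_of_le_one_right hR (Real.rpow_le_one (div_nonneg (hPb s).1 hm0.le)
      ((div_le_one hm0).2 (hPb s).2) (by positivity)), ?_⟩
  have htp : ∀ s, t s ^ (k + 1) = R ^ (k + 1) * (P s / m) := fun s => by
    simp only [t]
    rw [mul_pow, Real.rpow_inv_natCast_pow (div_nonneg (hPb s).1 hm0.le) (by omega)]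
  filter_upwards [htm.ae_differentiableAt,
    LocallyIntegrable.ae_hasDerivAt_integral hg.locallyIntegrable] with s hs hPd
  refine ⟨hs, ?_⟩
  have e1 : HasDerivAt (fun x => t x ^ (k + 1))
      ((((k + 1 : ℕ) : ℝ)) * t s ^ k * deriv t s) s := hs.hasDerivAt.pow (k + 1)
  have e2 : HasDerivAt (fun x => t x ^ (k + 1)) (R ^ (k + 1) * (g s / m)) s := by
    simp only [htp]
    exact ((hPd 0).div_const _).const_mul _
  have := e1.unique e2
  push_cast at this
  exact this

/-- The Jacobian of the transport. -/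
theorem product_eq {k : ℕ} {W s m R t t' τ' κV : ℝ} (hW : 0 < W) (hs : 0 < s) (hm : 0 < m)
    (hR : 0 < R) (ht : ((k : ℝ) + 1) * t ^ k * t' = R ^ (k + 1) * (W * s ^ k / m))
    (hτ : R ^ (k + 1) * τ' = ((k : ℝ) + 1) * (κV * m)) :
    κV = τ' / W * t' * (t / s) ^ k := by
  have e : (R ^ (k + 1) * τ') * (((k : ℝ) + 1) * t ^ k * t') =
      ((k : ℝ) + 1) * (κV * m) * (R ^ (k + 1) * (W * s ^ k / m)) := by rw [ht, hτ]
  have hR' : R ^ (k + 1) ≠ 0 := (pow_pos hR _).ne'
  have hk : ((k : ℝ) + 1) ≠ 0 := by positivity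
  have e' : τ' * (t ^ k * t') = κV * (W * s ^ k) := by
    have h2 : ((k : ℝ) + 1) * R ^ (k + 1) * (τ' * (t ^ k * t')) =
        ((k : ℝ) + 1) * R ^ (k + 1) * (κV * (W * s ^ k)) := by
      field_simp at e
      linear_combination (((k : ℝ) + 1) * R ^ (k + 1)) * e
    exact mul_left_cancel₀ (mul_ne_zero hk hR') h2
  rw [div_pow]
  field_simp
  linear_combination -e'

/-- The horizontal displacement agrees with the first order step. -/
theorem step_error {w : ℝ → ℝ} {m0 Wq ε η τ c y : ℝ} (hm0 : 0 < m0) (hWq : m0 ≤ Wq)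
    (hε : 0 < ε) (hη : 0 < η) (hw : ∀ a b, IntervalIntegrable w volume a b)
    (hy : ∫ x in c..y, w x = ε * τ) (hyc : |y - c| ≤ ε / m0)
    (hclose : ∀ x ∈ uIoc c y, dist Wq (w x) ≤ η * m0 ^ 2) :
    |y - c - ε * (τ / Wq)| ≤ ε * η := by
  have hW0 : 0 < Wq := hm0.trans_le hWq
  have e : (y - c) * Wq - ε * τ = ∫ x in c..y, (Wq - w x) := by
    rw [intervalIntegral.integral_sub intervalIntegrable_const (hw _ _),
      intervalIntegral.integral_const, smul_eq_mul, hy]
  have hb : |(y - c) * Wq - ε * τ| ≤ η * m0 ^ 2 * (ε / m0) := by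
    rw [e, ← Real.norm_eq_abs]
    refine (intervalIntegral.norm_integral_le_of_norm_le_const fun x hx => ?_).trans
      (mul_le_mul_of_nonneg_left hyc (by positivity))
    rw [Real.norm_eq_abs, ← Real.dist_eq]
    exact hclose x hx
  rw [show y - c - ε * (τ / Wq) = ((y - c) * Wq - ε * τ) / Wq by field_simp, abs_div,
    abs_of_pos hW0, div_le_iff₀ hW0]
  refine hb.trans ?_
  rw [show η * m0 ^ 2 * (ε / m0) = ε * η * m0 by field_simp]
  exact mul_le_mul_of_nonneg_left hWq (by positivity)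

theorem close_step {c s s1 x ε m0 δ : ℝ} (hm0 : 0 < m0) (hε : 0 < ε)
    (hδ : ε * (1 + 1 / m0) < δ) (hx : |x - c| ≤ ε / m0) (h1 : s ≤ s1) (h2 : s1 ≤ s + ε) :
    dist (c, s) (x, s1) < δ := by
  have : 0 < ε / m0 := div_pos hε hm0
  rw [mul_add, mul_one, mul_one_div] at hδ
  rw [Prod.dist_eq, Real.dist_eq, Real.dist_eq, abs_sub_comm c, abs_sub_comm s,
    abs_of_nonneg (sub_nonneg.2 h1)]
  exact max_lt (by linarith) (by linarith)

/-- The pointwise gain of mass. -/
theorem jac_step {k : ℕ} {ε g0 W W1 s t t' τ' : ℝ} (hε : 0 < ε) (hW : 0 < W) (hs : 0 < s)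
    (hτ : 0 ≤ τ') (ht' : 0 ≤ t') (ht : 0 ≤ t) (hW1 : W ≤ W1)
    (hb : (1 + ε * g0) ^ (k + 2) ≤
      (1 + ε * (τ' / W)) * (1 + ε * t') * (1 + ε * (t / s)) ^ k) :
    (1 + ε * g0) ^ (k + 2) * (W * s ^ k) ≤
      (1 + ε * t') * ((W1 + ε * τ') * (s + ε * t) ^ k) := by
  refine (mul_le_mul_of_nonneg_right hb (by positivity)).trans ?_
  rw [show (s + ε * t) ^ k = (1 + ε * (t / s)) ^ k * s ^ k by
    rw [← mul_pow]; congr 1; field_simp]
  calc _ = (1 + ε * t') * ((W + ε * τ') * ((1 + ε * (t / s)) ^ k * s ^ k)) := by field_simp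
    _ ≤ _ := by gcongr

/-- A first order step in the chart enlarges the mass as in Brunn-Minkowski. -/
theorem transport (hC : Chart h Q Jd E) (L : ℝ) {η : ℝ} (hη : 0 < η) :
    ∃ ε0 > 0, ∀ A : Set (ℝ × ℝ), IsCompact A → A ⊆ Icc (-L) L ×ˢ Icc 0 L →
      0 < mass k Jd E A → ∀ ε ∈ Ioc 0 ε0, ∀ B : Set (ℝ × ℝ), IsCompact B →
      (∀ q' : ℝ × ℝ, 0 ≤ q'.2 →
        (∃ q ∈ A, ∃ a b : ℝ, Jd q ^ 2 * a ^ 2 + b ^ 2 ≤ 1 ∧ ‖q' - q - ε • (a, b)‖ ≤ ε * η) →
        q' ∈ B) →
      mass k Jd E A ^ (((k : ℝ) + 2)⁻¹) + ε * ballConst k ^ (((k : ℝ) + 2)⁻¹)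
        ≤ mass k Jd E B ^ (((k : ℝ) + 2)⁻¹) := by
  have hEc := hC.E_cont
  have hJc := hC.J_cont
  have hwc : Continuous fun p => Jd p * E p ^ k := hJc.mul (hEc.pow k)
  have hwpos : ∀ p, 0 < Jd p * E p ^ k := fun p => by
    have := hC.J_pos p
    have := hC.E_one p
    positivity
  set N : ℝ := |L| + 1 with hN
  have hN0 : 0 ≤ N := by positivity
  set box : Set (ℝ × ℝ) := Icc (-N) N ×ˢ Icc 0 N with hbox
  have hboxc : IsCompact box := isCompact_Icc.prod isCompact_Icc
  let cl : ℝ × ℝ → ℝ × ℝ := fun p => (max (-N) (min N p.1), max 0 (min N p.2))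
  have hclbox : ∀ p, cl p ∈ box := fun p => ⟨⟨le_max_left _ _, max_le (by linarith) (min_le_left _ _)⟩,
    le_max_left _ _, max_le hN0 (min_le_left _ _)⟩
  have hcl : ∀ p ∈ box, cl p = p := fun p hp => by
    obtain ⟨⟨h1, h2⟩, h3, h4⟩ := hp
    simp only [cl, min_eq_right h2, min_eq_right h4, max_eq_right h1, max_eq_right h3]
  obtain ⟨W, hW⟩ : ∃ W : ℝ × ℝ → ℝ, W = fun p => Jd (cl p) * E (cl p) ^ k := ⟨_, rfl⟩
  have hWc : Continuous W := by
    rw [hW]
    exact hwc.comp (by fun_prop)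
  have hWbox : ∀ p ∈ box, W p = Jd p * E p ^ k := fun p hp => by simp only [hW, hcl p hp]
  obtain ⟨p0, hp0, hmin⟩ := hboxc.exists_isMinOn ⟨(0, 0), ⟨by linarith, hN0⟩, le_rfl, hN0⟩
    hwc.continuousOn
  set m0 := Jd p0 * E p0 ^ k with hm0
  have hm00 : 0 < m0 := hwpos p0
  have hW0 : ∀ p, m0 ≤ W p := fun p => by rw [hW]; exact hmin (hclbox p)
  obtain ⟨δ, hδ, huc⟩ := Metric.uniformContinuousOn_iff.1
    (hboxc.uniformContinuousOn_of_continuous hWc.continuousOn) (η * m0 ^ 2) (by positivity)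
  have hδm : 0 < δ / (1 + 1 / m0) / 2 := by positivity
  refine ⟨min (min 1 m0) (δ / (1 + 1 / m0) / 2), lt_min (lt_min one_pos hm00) hδm,
    fun A hA hAL hV0 ε hε B hB hcov => ?_⟩
  obtain ⟨hεp, hεle⟩ := hε
  have hε1 : ε ≤ 1 := hεle.trans ((min_le_left _ _).trans (min_le_left _ _))
  have hεm : ε / m0 ≤ 1 :=
    (div_le_one hm00).2 (hεle.trans ((min_le_left _ _).trans (min_le_right _ _)))
  have hεδ : ε * (1 + 1 / m0) < δ := by
    have := hεle.trans (min_le_right _ _)
    rw [div_div, le_div_iff₀ (by positivity)] at this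
    nlinarith [mul_pos hεp (show (0 : ℝ) < 1 + 1 / m0 by positivity)]
  have hup : MeasurableSet upper := MeasurableSet.univ.prod measurableSet_Ioi
  have hAt : MeasurableSet (A ∩ upper) := hA.measurableSet.inter hup
  have hcoord : ∀ q ∈ A, |q.1| ≤ |L| ∧ 0 ≤ q.2 ∧ q.2 ≤ |L| := fun q hq => by
    obtain ⟨⟨h1, h2⟩, h3, h4⟩ := hAL hq
    exact ⟨abs_le.2 ⟨by linarith [le_abs_self L], by linarith [le_abs_self L]⟩, h3,
      h4.trans (le_abs_self L)⟩
  have hdc : Continuous (dens k Jd E) := hJc.mul ((continuous_snd.mul hEc).pow k)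
  let g : ℝ × ℝ → ℝ := (A ∩ upper).indicator (dens k Jd E)
  have hgm : Measurable g := hdc.measurable.indicator hAt
  have hg0 : ∀ q, 0 ≤ g q := fun q => indicator_nonneg (fun p hp => by
    have : 0 < p.2 := hp.2.2
    have := hC.J_pos p
    have := hC.E_one p
    show 0 ≤ Jd p * (p.2 * E p) ^ k
    positivity) q
  have hgi : Integrable g (volume : Measure (ℝ × ℝ)) :=
    (integrable_indicator_iff hAt).2 ((hdc.continuousOn.integrableOn_compact hA).mono_set
      inter_subset_left)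
  obtain ⟨G0, hG0⟩ := hA.exists_bound_of_continuousOn hdc.continuousOn
  have hgb : ∀ c s, g (c, s) ≤ (Icc 0 |L|).indicator (fun _ => max G0 0) s := fun c s => by
    by_cases hq : (c, s) ∈ A ∩ upper
    · have hs : s ∈ Icc 0 |L| := ⟨(hcoord _ hq.1).2.1, (hcoord _ hq.1).2.2⟩
      rw [indicator_of_mem hs, show g (c, s) = dens k Jd E (c, s) from indicator_of_mem hq _]
      exact ((le_abs_self _).trans (hG0 _ hq.1)).trans (le_max_left _ _)
    · rw [show g (c, s) = 0 from indicator_of_notMem hq _]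
      exact indicator_nonneg (fun _ _ => le_max_right _ _) _
  have hI : Integrable (fun s => (Icc 0 |L|).indicator (fun _ => max G0 0) s) volume :=
    (integrable_indicator_iff measurableSet_Icc).2 (integrableOn_const measure_Icc_lt_top.ne)
  have hgc : ∀ c, Integrable (fun s => g (c, s)) volume := fun c =>
    hI.mono' (hgm.comp measurable_prodMk_left).aestronglyMeasurable
      (ae_of_all _ fun s => by rw [Real.norm_of_nonneg (hg0 _)]; exact hgb c s)
  -- the marginal
  obtain ⟨m, hm⟩ : ∃ m : ℝ → ℝ, m = fun c => ∫ s, g (c, s) := ⟨_, rfl⟩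
  have hgi' : Integrable g ((volume : Measure ℝ).prod (volume : Measure ℝ)) := by
    rw [← Measure.volume_eq_prod]; exact hgi
  have hmi : Integrable m volume := by rw [hm]; exact hgi'.integral_prod_left
  have hmnn : ∀ c, 0 ≤ m c := fun c => by rw [hm]; exact integral_nonneg fun s => hg0 _
  set V := mass k Jd E A with hV
  have hgV : ∫ c, m c = V := by
    rw [hm, hV, mass, ← integral_indicator hAt, Measure.volume_eq_prod]
    exact (integral_prod g hgi').symm
  have hzero : ∀ c, c ≤ -N → m c = 0 := fun c hc => by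
    rw [hm]
    refine integral_eq_zero_of_ae (ae_of_all _ fun s => indicator_of_notMem (fun hq => ?_) _)
    have := (abs_le.1 (hcoord _ hq.1).1).1
    simp only at this
    linarith
  have hM : ∀ c, (0 ≤ ∫ x in (-N)..c, m x) ∧ ∫ x in (-N)..c, m x ≤ V := fun c => by
    rcases le_total (-N) c with hc | hc
    · rw [intervalIntegral.integral_of_le hc, ← hgV]
      exact ⟨integral_nonneg fun x => hmnn x,
        setIntegral_le_integral hmi (ae_of_all _ hmnn)⟩
    · rw [intervalIntegral.integral_of_ge hc, setIntegral_eq_zero_of_forall_eq_zero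
        (fun x hx => hzero x hx.2), neg_zero]
      exact ⟨le_rfl, hV0.le⟩
  have hMmono : Monotone fun c => ∫ x in (-N)..c, m x := fun a b hab => by
    have := intervalIntegral.integral_add_adjacent_intervals
      (hmi.intervalIntegrable (a := -N) (b := a)) (hmi.intervalIntegrable (a := a) (b := b))
    have := intervalIntegral.integral_nonneg (μ := volume) hab fun x _ => hmnn x
    simp only
    linarith
  obtain ⟨τ, hτm, hτI, hκ, hτd⟩ :=
    exists_tau k hmi.locallyIntegrable (fun c => (hM c).1) (fun c => (hM c).2) hMmono hV0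
  have hτ1 : ∀ c, |τ c| ≤ 1 := fun c => abs_le.2 (hτI c)
  have hτ' : ∀ c, 0 ≤ deriv τ c := fun c => hτm.deriv_nonneg
  -- the first coordinate of the map
  let Γ : ℝ → ℝ → ℝ := fun y s => ∫ x in (0 : ℝ)..y, W (x, s)
  have hWi : ∀ s a b, IntervalIntegrable (fun x => W (x, s)) volume a b := fun s a b =>
    (hWc.comp (by fun_prop)).intervalIntegrable a b
  have hΓc : Continuous fun p : ℝ × ℝ => Γ p.1 p.2 :=
    intervalIntegral.continuous_parametric_intervalIntegral_of_continuous
      (f := fun p : ℝ × ℝ => fun x => W (x, p.2)) (hWc.comp (by fun_prop)) continuous_fst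
  have hΓd : ∀ y s, HasDerivAt (fun z => Γ z s) (W (y, s)) y := fun y s =>
    ((hWc.comp (by fun_prop)).integral_hasStrictDerivAt 0 y).hasDerivAt
  have hΓb : ∀ s a b, a ≤ b → m0 * (b - a) ≤ Γ b s - Γ a s := fun s a b hab => by
    rw [intervalIntegral.integral_interval_sub_left (hWi s _ _) (hWi s _ _)]
    calc m0 * (b - a) = ∫ _ in a..b, m0 := by simp [mul_comm]
      _ ≤ _ := intervalIntegral.integral_mono_on hab intervalIntegrable_const (hWi s a b)
        fun x _ => hW0 _
  have hΓm : ∀ s, StrictMono fun y => Γ y s := fun s a b hab => by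
    have := hΓb s a b hab.le
    have : 0 < m0 * (b - a) := mul_pos hm00 (sub_pos.2 hab)
    simp only
    linarith
  have hex : ∀ p : ℝ × ℝ, ∃ y ∈ Icc (p.1 - ε / m0) (p.1 + ε / m0),
      Γ y p.2 = Γ p.1 p.2 + ε * τ p.1 := fun p => by
    have he : 0 ≤ ε / m0 := by positivity
    refine intermediate_value_Icc (by linarith)
      ((hΓc.comp (continuous_id.prodMk continuous_const)).continuousOn) ⟨?_, ?_⟩
    · have := hΓb p.2 (p.1 - ε / m0) p.1 (by linarith)
      rw [sub_sub_cancel, mul_div_cancel₀ _ hm00.ne'] at this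
      have := mul_le_mul_of_nonneg_left (abs_le.1 (hτ1 p.1)).1 hεp.le
      simp only [Function.comp, id]
      linarith
    · have := hΓb p.2 p.1 (p.1 + ε / m0) (by linarith)
      rw [add_sub_cancel_left, mul_div_cancel₀ _ hm00.ne'] at this
      have := mul_le_mul_of_nonneg_left (abs_le.1 (hτ1 p.1)).2 hεp.le
      simp only [Function.comp, id]
      linarith
  choose Φ hΦ1 hΦ2 using hex
  have hΦm : Measurable Φ := measurable_of_Iic fun r => by
    have e : Φ ⁻¹' Iic r = {p | Γ p.1 p.2 + ε * τ p.1 ≤ Γ r p.2} := by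
      ext p
      rw [mem_preimage, mem_Iic, mem_setOf_eq, ← hΦ2 p, (hΓm p.2).le_iff_le]
    rw [e]
    exact measurableSet_le (hΓc.measurable.add ((hτm.measurable.comp measurable_fst).const_mul ε))
      (hΓc.comp (continuous_const.prodMk continuous_snd)).measurable
  have hΦmono : ∀ s, Monotone fun c => Φ (c, s) := fun s a b hab => by
    refine (hΓm s).le_iff_le.1 ?_
    simp only
    rw [hΦ2 (a, s), hΦ2 (b, s)]
    exact add_le_add ((hΓm s).monotone hab) (mul_le_mul_of_nonneg_left (hτm hab) hεp.le)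
  -- the target
  set B' := B ∩ box ∩ upper with hB'
  have hB'm : MeasurableSet B' := (hB.measurableSet.inter hboxc.measurableSet).inter hup
  let U : ℝ × ℝ → ℝ≥0∞ := B'.indicator fun p => ENNReal.ofReal (W p * p.2 ^ k)
  let H : ℝ → ℝ → ℝ≥0∞ := fun c s => B'.indicator 1 (Φ (c, s), s) *
    ENNReal.ofReal ((W (c, s) + ε * deriv τ c) * s ^ k)
  have hUm : Measurable U := ((hWc.mul (continuous_snd.pow k)).measurable.ennreal_ofReal).indicator hB'm
  have hHm : Measurable (Function.uncurry H) := by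
    refine ((measurable_one.indicator hB'm).comp (hΦm.prodMk measurable_snd)).mul ?_
    exact ((hWc.measurable.add (((measurable_deriv τ).comp measurable_fst).const_mul ε)).mul
      (measurable_snd.pow_const k)).ennreal_ofReal
  have hU : ∫⁻ p, U p ≤ ENNReal.ofReal (mass k Jd E B) := by
    rw [ofReal_mass hC hB, lintegral_indicator hB'm]
    refine le_of_eq_of_le (setLIntegral_congr_fun hB'm fun p hp => ?_)
      (lintegral_mono_set fun p hp => ⟨hp.1.1, hp.2⟩)
    simp only [dens, hWbox p hp.1.2, mul_pow]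
    congr 1
    ring
  have hstep1 : ∀ s, ∫⁻ c, H c s ≤ ∫⁻ y, U (y, s) := fun s => by
    refine le_trans (le_of_eq (lintegral_congr_ae ?_)) (mono_cov (hΦmono s) fun y => U (y, s))
    filter_upwards [(hΦmono s).ae_differentiableAt, hτd] with c hc hc'
    by_cases hmem : (Φ (c, s), s) ∈ B'
    · have hs : 0 < s := hmem.2.2
      have e1 : HasDerivAt (fun x => Γ (Φ (x, s)) s)
          (W (Φ (c, s), s) * deriv (fun c => Φ (c, s)) c) c :=
        (hΓd (Φ (c, s)) s).comp (h := fun c => Φ (c, s)) c hc.hasDerivAt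
      have e2 : HasDerivAt (fun x => Γ (Φ (x, s)) s) (W (c, s) + ε * deriv τ c) c := by
        simp only [fun x => hΦ2 (x, s)]
        exact (hΓd c s).add (hc'.1.hasDerivAt.const_mul ε)
      simp only [H, U, indicator_of_mem hmem, Pi.one_apply, one_mul]
      rw [← ENNReal.ofReal_mul ((hΦmono s).deriv_nonneg), ← e1.unique e2]
      congr 1
      ring
    · simp only [H, U, indicator_of_notMem hmem, zero_mul, mul_zero]
  -- the second coordinate and the pointwise bound
  set g0 := (ballConst k / V) ^ (((k + 2 : ℕ) : ℝ)⁻¹) with hg0'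
  have hg00 : 0 ≤ g0 := by positivity
  set C0 := (1 + ε * g0) ^ (k + 2) with hC0
  have hstep2 : ∀ᵐ c, ∫⁻ s, ENNReal.ofReal (C0 * g (c, s)) ≤ ∫⁻ s, H c s := by
    filter_upwards [hτd] with c hc
    rcases eq_or_lt_of_le (hmnn c) with hm0' | hmpos
    · have : (fun s => g (c, s)) =ᵐ[volume] 0 :=
        (integral_eq_zero_iff_of_nonneg (fun s => hg0 _) (hgc c)).1
          (by rw [hm] at hm0'; exact hm0'.symm)
      refine le_of_eq_of_le (lintegral_eq_zero_of_ae_eq_zero ?_) bot_le
      filter_upwards [this] with s hs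
      rw [Pi.zero_apply] at hs
      simp [hs]
    set R := √(1 - τ c ^ 2) with hR
    have hR0 : 0 ≤ R := Real.sqrt_nonneg _
    have hgneg : ∀ x, x ≤ 0 → g (c, x) = 0 := fun x hx =>
      indicator_of_notMem (fun hq => absurd (show (0 : ℝ) < x from hq.2.2) (not_lt.2 hx)) _
    obtain ⟨t, htm, ht0, htR, htd'⟩ := exists_fibre k (hgc c) (fun s => hg0 _) hgneg
      (show ∫ s, g (c, s) = m c by rw [hm]) hmpos hR0
    obtain ⟨G, hG⟩ : ∃ G : ℝ → ℝ, G = fun s => s + ε * t s := ⟨_, rfl⟩
    have hGm : Monotone G := by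
      rw [hG]; exact monotone_id.add (htm.const_mul hεp.le)
    refine le_trans (lintegral_mono_ae ?_) (mono_cov hGm fun s => H c s)
    filter_upwards [htd'] with s hsd
    obtain ⟨hs, htd⟩ := hsd
    by_cases hq : (c, s) ∈ A ∩ upper
    swap
    · simp [show g (c, s) = 0 from indicator_of_notMem hq _]
    have hs0 : 0 < s := hq.2.2
    obtain ⟨hcL, -, hsL⟩ := hcoord _ hq.1
    simp only at hcL hsL
    have hR1 : R ≤ 1 := Real.sqrt_le_one.2 (by linarith [sq_nonneg (τ c)])
    have hGle : G s ≤ s + ε := by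
      have := mul_le_mul_of_nonneg_left ((htR s).trans hR1) hεp.le
      simp only [hG]
      linarith
    have hGge : s ≤ G s := by
      have := mul_nonneg hεp.le (ht0 s)
      simp only [hG]
      linarith
    have hqbox : (c, s) ∈ box := ⟨abs_le.1 (hcL.trans (by linarith)), hs0.le, by linarith⟩
    have hsbox : (c, G s) ∈ box := ⟨hqbox.1, (hs0.le.trans hGge), by linarith⟩
    obtain ⟨hΦl, hΦr⟩ := hΦ1 (c, G s)
    have hΦbox : ∀ x ∈ uIcc c (Φ (c, G s)), (x, G s) ∈ box ∧ |x - c| ≤ ε / m0 := fun x hx => by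
      have he : 0 ≤ ε / m0 := by positivity
      have hx' : x ∈ Icc (c - ε / m0) (c + ε / m0) :=
        uIcc_subset_Icc ⟨by linarith, by linarith⟩ ⟨hΦl, hΦr⟩ hx
      obtain ⟨c1, c2⟩ := abs_le.1 hcL
      exact ⟨⟨⟨by linarith [hx'.1], by linarith [hx'.2]⟩, hsbox.2⟩,
        abs_le.2 ⟨by linarith [hx'.1], by linarith [hx'.2]⟩⟩
    set q : ℝ × ℝ := (c, s) with hqdef
    have hWq : W q = Jd q * E q ^ k := hWbox q hqbox
    have hJq := hC.J_pos q
    have hEq : 1 ≤ E q ^ k := one_le_pow₀ (hC.E_one q)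
    have hWpos : 0 < W q := hm00.trans_le (hW0 q)
    have hmemB : (Φ (c, G s), G s) ∈ B' := by
      refine ⟨⟨hcov _ (hs0.le.trans hGge) ⟨q, hq.1, τ c / W q, t s, ?_, ?_⟩,
        (hΦbox _ right_mem_uIcc).1⟩, mem_univ _, hs0.trans_le hGge⟩
      · have h1 : Jd q ^ 2 * (τ c / W q) ^ 2 ≤ τ c ^ 2 := by
          rw [← mul_pow, show Jd q * (τ c / W q) = τ c / E q ^ k by rw [hWq]; field_simp, div_pow]
          exact div_le_self (sq_nonneg _) (one_le_pow₀ hEq)
        have h2 : t s ^ 2 ≤ 1 - τ c ^ 2 := by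
          refine (pow_le_pow_left₀ (ht0 s) (htR s) 2).trans_eq (Real.sq_sqrt ?_)
          nlinarith [abs_le.1 (hτ1 c)]
        linarith
      · rw [hqdef, Prod.smul_mk, Prod.mk_sub_mk, Prod.mk_sub_mk, Prod.norm_def]
        refine max_le ?_ ?_
        · rw [smul_eq_mul, Real.norm_eq_abs]
          refine step_error hm00 (hW0 q) hεp hη (hWi (G s)) ?_
            (hΦbox _ right_mem_uIcc).2 fun x hx => ?_
          · rw [← intervalIntegral.integral_interval_sub_left (hWi (G s) 0 _) (hWi (G s) 0 _)]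
            exact sub_eq_iff_eq_add'.2 (hΦ2 (c, G s))
          · obtain ⟨hxb, hxc⟩ := hΦbox x (uIoc_subset_uIcc hx)
            exact (huc q hqbox _ hxb (close_step hm00 hεp hεδ hxc hGge hGle)).le
        · have e : G s - s - ε * t s = 0 := by rw [hG]; ring
          simp only [smul_eq_mul]
          rw [e, norm_zero]
          positivity
    have hWle : W q ≤ W (c, G s) := by
      rw [hWq, hWbox _ hsbox]
      exact mul_le_mul (hC.J_mono c (mem_Ici.2 hs0.le) (mem_Ici.2 (hs0.le.trans hGge)) hGge)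
        (pow_le_pow_left₀ (by linarith [hC.E_one q])
          (hC.E_mono c (mem_Ici.2 hs0.le) (mem_Ici.2 (hs0.le.trans hGge)) hGge) k)
        (by positivity) (hC.J_pos _).le
    have hWle' : W q ≤ W (c, s + ε * t s) := by
      rw [show s + ε * t s = G s by rw [hG]]; exact hWle
    have hgq : g q = W q * s ^ k := by
      rw [show g q = dens k Jd E q from indicator_of_mem hq _, dens, hWq, hqdef, mul_pow]
      ring
    have hgpos : 0 < g q := by rw [hgq]; positivity
    have hder : deriv G s = 1 + ε * deriv t s := by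
      rw [hG]
      exact ((hasDerivAt_id' s).add (hs.hasDerivAt.const_mul ε)).deriv
    have hRpos : 0 < R := by
      rcases hR0.eq_or_lt with h0 | h0
      · have := hc.2
        rw [← h0, zero_pow (by omega), zero_mul] at this
        have : 0 < ((k : ℝ) + 1) * (ballConst k / V * m c) := by positivity
        linarith
      · exact h0
    have hprod : g0 ^ (k + 2) = deriv τ c / W q * deriv t s * (t s / s) ^ k := by
      rw [hg0', Real.rpow_inv_natCast_pow (by positivity) (by omega)]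
      exact product_eq hWpos hs0 hmpos hRpos (hgq ▸ htd) hc.2
    have hbnd := jacobian_amgm hεp hg00 (div_nonneg (hτ' c) hWpos.le) htm.deriv_nonneg
      (div_nonneg (ht0 s) hs0.le) hprod
    show ENNReal.ofReal (C0 * g q) ≤
      ENNReal.ofReal (deriv G s) * H c (G s)
    rw [show H c (G s) = ENNReal.ofReal ((W (c, G s) + ε * deriv τ c) * G s ^ k) by
        simp only [H, indicator_of_mem hmemB, Pi.one_apply, one_mul],
      hder, ← ENNReal.ofReal_mul (by linarith [mul_nonneg hεp.le (htm.deriv_nonneg (x := s))]),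
      hgq, show G s = s + ε * t s by rw [hG]]
    exact ENNReal.ofReal_le_ofReal (jac_step hεp hWpos hs0 (hτ' c) htm.deriv_nonneg (ht0 s) hWle'
      hbnd)
  -- conclusion
  have hC00 : 0 ≤ C0 := by positivity
  have hmain : ENNReal.ofReal (C0 * V) ≤ ENNReal.ofReal (mass k Jd E B) := by
    calc ENNReal.ofReal (C0 * V) = ∫⁻ c, ∫⁻ s, ENNReal.ofReal (C0 * g (c, s)) := by
          rw [show C0 * V = ∫ p, C0 * g p by
            rw [integral_const_mul]; congr 1; rw [hV, mass, ← integral_indicator hAt]]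
          rw [ofReal_integral_eq_lintegral_ofReal (hgi.const_mul C0)
            (ae_of_all _ fun p => mul_nonneg hC00 (hg0 p)), Measure.volume_eq_prod,
            lintegral_prod _ (hgm.const_mul C0).ennreal_ofReal.aemeasurable]
      _ ≤ ∫⁻ c, ∫⁻ s, H c s := lintegral_mono_ae hstep2
      _ = ∫⁻ s, ∫⁻ c, H c s := lintegral_lintegral_swap hHm.aemeasurable
      _ ≤ ∫⁻ s, ∫⁻ y, U (y, s) := lintegral_mono hstep1
      _ = ∫⁻ p, U p := by rw [Measure.volume_eq_prod, lintegral_prod_symm _ hUm.aemeasurable]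
      _ ≤ _ := hU
  have hB0 : 0 ≤ mass k Jd E B := by
    refine setIntegral_nonneg (hB.measurableSet.inter hup) fun p hp => ?_
    have : 0 < p.2 := hp.2.2
    have := hC.J_pos p
    have := hC.E_one p
    show 0 ≤ Jd p * (p.2 * E p) ^ k
    positivity
  have hle := (ENNReal.ofReal_le_ofReal_iff hB0).1 hmain
  set w := ((k : ℝ) + 2)⁻¹ with hw
  have hwn : (((k + 2 : ℕ) : ℝ))⁻¹ = w := by rw [hw]; push_cast; ring_nf
  have hfin := Real.rpow_le_rpow (by positivity) hle (show 0 ≤ w by positivity)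
  refine le_trans (le_of_eq ?_) hfin
  rw [Real.mul_rpow hC00 hV0.le, hC0, ← hwn, Real.pow_rpow_inv_natCast (by positivity) (by omega),
    hg0', add_mul, one_mul, mul_assoc, ← Real.mul_rpow (by positivity) hV0.le,
    div_mul_cancel₀ _ hV0.ne']

end

end Vale.Agent.P219.Sharp
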