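import Vale.Agent.P219.Sharp.Geo
import Vale.Agent.P219.Sharp.Dist
import Vale.Agent.P219.Sharp.Symm
import Vale.Agent.P219.Sharp.Merid
import Vale.Agent.P219.Sharp.Transport

/-!
# P219: the sharp inequality in the rotationally symmetric class
-/

namespace Vale.Agent.P219.Sharp

open MeasureTheory Metric Set Filter
open scoped RealInnerProductSpace Topology

noncomputable section

variable {k : ℕ} {h : ℝ → ℝ}

/-- The unit vector of the axis. -/
def axisVec (k : ℕ) : Sp (k + 2) := EuclideanSpace.single 0 1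

/-- The point with meridian coordinates `p` in the half plane spanned by `u`. -/
def lift (u : Sp (k + 2)) (p : ℝ × ℝ) : Sp (k + 2) := p.1 • axisVec k + p.2 • u

/-- The unit vectors orthogonal to the axis. -/
def Orth (k : ℕ) : Set (Sp (k + 2)) := {u | ‖u‖ = 1 ∧ u 0 = 0}

theorem norm_axisVec : ‖axisVec k‖ = 1 := by simp [axisVec]

theorem inner_axisVec (z : Sp (k + 2)) : ⟪axisVec k, z⟫ = z 0 := by
  simp [axisVec, EuclideanSpace.inner_single_left]

theorem inner_lift {u : Sp (k + 2)} (hu : u ∈ Orth k) (p q : ℝ × ℝ) :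
    ⟪lift u p, lift u q⟫ = p.1 * q.1 + p.2 * q.2 := by
  simp only [lift, inner_add_left, inner_add_right, real_inner_smul_left, real_inner_smul_right]
  rw [real_inner_comm (axisVec k) u, inner_axisVec, inner_axisVec, real_inner_self_eq_norm_sq, hu.1]
  simp [hu.2, axisVec]
  ring

theorem normSq_lift {u : Sp (k + 2)} (hu : u ∈ Orth k) (p : ℝ × ℝ) :
    ‖lift u p‖ ^ 2 = p.1 ^ 2 + p.2 ^ 2 := by
  rw [← real_inner_self_eq_norm_sq, inner_lift hu]; ring

theorem gq_lift {u : Sp (k + 2)} (hu : u ∈ Orth k) (p v : ℝ × ℝ) :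
    gq h (lift u p) (lift u v) = gq2 h p v := by
  simp only [gq, gq2, normSq_lift hu, inner_lift hu]

theorem lift_add (u : Sp (k + 2)) (p q : ℝ × ℝ) (s : ℝ) :
    lift u p + s • (lift u q - lift u p) = lift u (p + s • (q - p)) := by
  simp only [lift, Prod.fst_add, Prod.snd_add, Prod.smul_fst, Prod.smul_snd, Prod.fst_sub,
    Prod.snd_sub, smul_eq_mul]
  module

theorem lift_sub (u : Sp (k + 2)) (p q : ℝ × ℝ) : lift u q - lift u p = lift u (q - p) := by
  simp only [lift, Prod.fst_sub, Prod.snd_sub]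
  module

theorem mer_lift {u : Sp (k + 2)} (hu : u ∈ Orth k) {p : ℝ × ℝ} (hp : 0 ≤ p.2) :
    mer (lift u p) = p := by
  have h0 : lift u p 0 = p.1 := by simp [lift, axisVec, hu.2]
  simp only [mer, h0, normSq_lift hu]
  refine Prod.ext rfl ?_
  simp [Real.sqrt_sq hp]

theorem exists_orth (k : ℕ) : (Orth k).Nonempty :=
  ⟨EuclideanSpace.single 1 1, by simp, by simp⟩

theorem exists_lift (z : Sp (k + 2)) : ∃ u ∈ Orth k, z = lift u (mer z) := by
  set w := z - z 0 • axisVec k with hw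
  have hw0 : w 0 = 0 := by simp [hw, axisVec]
  have hwn : ‖w‖ ^ 2 = ‖z‖ ^ 2 - z 0 ^ 2 := by
    rw [hw, norm_sub_sq_real, real_inner_smul_right, real_inner_comm, inner_axisVec, norm_smul,
      norm_axisVec, mul_one, Real.norm_eq_abs, sq_abs]
    ring
  have hm : (mer z).2 = ‖w‖ := by
    simp only [mer]
    rw [← hwn, Real.sqrt_sq (norm_nonneg _)]
  rcases eq_or_ne w 0 with h0 | h0
  · obtain ⟨u, hu⟩ := exists_orth k
    refine ⟨u, hu, ?_⟩
    rw [lift, hm, h0, norm_zero, zero_smul, add_zero]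
    exact (sub_eq_zero.1 (hw ▸ h0))
  · refine ⟨‖w‖⁻¹ • w, ⟨by simp [norm_smul, h0], by simp [hw0]⟩, ?_⟩
    rw [lift, hm, smul_inv_smul₀ (norm_ne_zero_iff.2 h0)]
    simp [hw, mer]

theorem continuous_gq2 (hM : Met h) : Continuous fun p : (ℝ × ℝ) × (ℝ × ℝ) => gq2 h p.1 p.2 := by
  have := continuous_Nc hM
  have := hM.cont
  unfold gq2
  fun_prop

theorem gq2_smul (p v : ℝ × ℝ) (r : ℝ) : gq2 h p (r • v) = r ^ 2 * gq2 h p v := by
  simp [gq2]; ring

/-- The derivative of `F` at `x.1 + r x.2.2 x.2.1` in the direction `x.2.1`. -/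
def dirDeriv (F : ℝ × ℝ → ℝ × ℝ) (x : (ℝ × ℝ) × (ℝ × ℝ) × ℝ) (r : ℝ) : ℝ × ℝ :=
  fderiv ℝ F (x.1 + (r * x.2.2) • x.2.1) x.2.1

theorem continuous_dirDeriv {F : ℝ × ℝ → ℝ × ℝ} (hF : Continuous (fderiv ℝ F)) :
    Continuous fun z : ((ℝ × ℝ) × (ℝ × ℝ) × ℝ) × ℝ => dirDeriv F z.1 z.2 := by
  unfold dirDeriv
  fun_prop

/-- The averaged derivative. -/
def secant (F : ℝ × ℝ → ℝ × ℝ) (x : (ℝ × ℝ) × (ℝ × ℝ) × ℝ) : ℝ × ℝ :=
  ∫ r in (0 : ℝ)..1, dirDeriv F x r

theorem secant_eq {F : ℝ × ℝ → ℝ × ℝ} (hF : ContDiff ℝ 1 F) (q v : ℝ × ℝ) (ε : ℝ) :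
    F (q + ε • v) - F q = ε • secant F (q, v, ε) := by
  have hd : ∀ r ∈ uIcc (0 : ℝ) 1, HasDerivAt (fun r : ℝ => F (q + (r * ε) • v))
      (ε • fderiv ℝ F (q + (r * ε) • v) v) r := by
    intro r _
    have hl : HasDerivAt (fun r : ℝ => q + (r * ε) • v) (ε • v) r := by
      simpa using (((hasDerivAt_id r).mul_const ε).smul_const v).const_add q
    exact (((hF.differentiable one_ne_zero _).hasFDerivAt).comp_hasDerivAt r hl).congr_deriv
      (map_smul _ _ _)
  have hcf := hF.continuous_fderiv one_ne_zero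
  have hi : Continuous fun r : ℝ => ε • fderiv ℝ F (q + (r * ε) • v) v := by fun_prop
  have := intervalIntegral.integral_eq_sub_of_hasDerivAt hd (hi.intervalIntegrable _ _)
  rw [intervalIntegral.integral_smul] at this
  simp only [one_mul, zero_mul, zero_smul, add_zero] at this
  exact this.symm

theorem continuous_secant {F : ℝ × ℝ → ℝ × ℝ} (hF : ContDiff ℝ 1 F) : Continuous (secant F) :=
  intervalIntegral.continuous_parametric_intervalIntegral_of_continuous'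
    (continuous_dirDeriv (hF.continuous_fderiv one_ne_zero)) 0 1

/-- The squared speed along a secant. -/
def speedSq (h : ℝ → ℝ) (F : ℝ × ℝ → ℝ × ℝ) (y : (ℝ × ℝ) × (ℝ × ℝ) × ℝ × ℝ) : ℝ :=
  gq2 h (F y.1 + (y.2.2.2 * y.2.2.1) • secant F (y.1, y.2.1, y.2.2.1))
    (secant F (y.1, y.2.1, y.2.2.1))

theorem continuous_speedSq (hM : Met h) {F : ℝ × ℝ → ℝ × ℝ} (hF : ContDiff ℝ 1 F) :
    Continuous (speedSq h F) := by
  have h1 : Continuous fun y : (ℝ × ℝ) × (ℝ × ℝ) × ℝ × ℝ => secant F (y.1, y.2.1, y.2.2.1) :=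
    (continuous_secant hF).comp (by fun_prop)
  have := hF.continuous
  exact (continuous_gq2 hM).comp (((show Continuous fun y : (ℝ × ℝ) × (ℝ × ℝ) × ℝ × ℝ => F y.1 by
    fun_prop).add ((show Continuous fun y : (ℝ × ℝ) × (ℝ × ℝ) × ℝ × ℝ => y.2.2.2 * y.2.2.1 by
    fun_prop).smul h1)).prodMk h1)

/-- Near the unit vectors of the chart the speed is nearly at most one, uniformly. -/
theorem tube (hM : Met h) {Q : ℝ × ℝ ≃ₜ ℝ × ℝ} {Jd E : ℝ × ℝ → ℝ} (hC : Chart h Q Jd E)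
    (L : ℝ) {η : ℝ} (hη : 0 < η) :
    ∃ ρ > 0, ∀ q ∈ Icc (-L) L ×ˢ Icc 0 L, ∀ (a b : ℝ) (v : ℝ × ℝ) (e s : ℝ),
      Jd q ^ 2 * a ^ 2 + b ^ 2 ≤ 1 → dist v (a, b) < ρ → |e| < ρ → s ∈ Icc (0 : ℝ) 1 →
      speedSq h Q (q, v, e, s) < (1 + η) ^ 2 := by
  set box := Icc (-L) L ×ˢ Icc (0 : ℝ) L
  have hbox : IsCompact box := isCompact_Icc.prod isCompact_Icc
  obtain ⟨m, hm⟩ : ∃ m, ∀ q ∈ box, (Jd q)⁻¹ ≤ m := by
    obtain ⟨m, hm⟩ := hbox.exists_bound_of_continuousOn
      (hC.J_cont.continuousOn.inv₀ fun q _ => (hC.J_pos q).ne')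
    exact ⟨m, fun q hq => (le_abs_self _).trans (hm q hq)⟩
  set C : Set ((ℝ × ℝ) × (ℝ × ℝ) × ℝ × ℝ) :=
    box ×ˢ ((Icc (-m) m ×ˢ Icc (-1 : ℝ) 1) ×ˢ (({0} : Set ℝ) ×ˢ Icc (0 : ℝ) 1)) ∩
      {y | Jd y.1 ^ 2 * y.2.1.1 ^ 2 + y.2.1.2 ^ 2 ≤ 1}
  have hCc : IsCompact C := by
    refine IsCompact.inter_right ?_ (isClosed_le (by have := hC.J_cont; fun_prop) continuous_const)
    exact hbox.prod ((isCompact_Icc.prod isCompact_Icc).prod (isCompact_singleton.prod isCompact_Icc))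
  have hsub : C ⊆ speedSq h Q ⁻¹' Iio ((1 + η) ^ 2) := by
    rintro ⟨q, v, e, s⟩ ⟨⟨-, -, he, -⟩, hv⟩
    obtain rfl : e = 0 := he
    have h0 : secant Q (q, v, 0) = fderiv ℝ Q q v := by simp [secant, dirDeriv]
    simp only [mem_preimage, speedSq, h0, mul_zero, zero_smul, add_zero, mem_Iio]
    rw [show v = (v.1, v.2) from rfl, hC.metric]
    exact lt_of_le_of_lt hv (by nlinarith)
  obtain ⟨ρ, hρ, hρs⟩ :=
    hCc.exists_thickening_subset_open (isOpen_Iio.preimage (continuous_speedSq hM hC.smooth)) hsub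
  refine ⟨ρ, hρ, fun q hq a b v e s hab hv he hs => ?_⟩
  have hb1 : |b| ≤ 1 := by
    refine (sq_le_sq₀ (abs_nonneg b) zero_le_one).1 ?_
    nlinarith [sq_abs b, sq_nonneg (Jd q * a)]
  have ha1 : |a| ≤ m := by
    refine le_trans ?_ (hm q hq)
    rw [← one_div, le_div_iff₀ (hC.J_pos q)]
    refine (sq_le_sq₀ (mul_nonneg (abs_nonneg a) (hC.J_pos q).le) zero_le_one).1 ?_
    nlinarith [sq_abs a, sq_nonneg b]
  refine hρs (mem_thickening_iff.2 ⟨(q, (a, b), 0, s),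
    ⟨⟨hq, ⟨abs_le.1 ha1, abs_le.1 hb1⟩, rfl, hs⟩, hab⟩, ?_⟩)
  simp [Prod.dist_eq] at hv ⊢
  tauto

/-- Moving a point of the chart by a short vector of length at most one costs at most the expected
distance, uniformly on a box. -/
theorem short_move (hM : Met h) {Q : ℝ × ℝ ≃ₜ ℝ × ℝ} {Jd E : ℝ × ℝ → ℝ} (hC : Chart h Q Jd E)
    (L : ℝ) {η : ℝ} (hη : 0 < η) :
    ∃ ρ > 0, ∀ q ∈ Icc (-L) L ×ˢ Icc 0 L, ∀ (q' : ℝ × ℝ) (ε a b : ℝ), 0 < ε → ε < ρ →
      Jd q ^ 2 * a ^ 2 + b ^ 2 ≤ 1 → ‖q' - q - ε • (a, b)‖ ≤ ε * (ρ / 2) →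
      ∀ u ∈ Orth k, gdist h (lift u (Q q)) (lift u (Q q')) ≤ ε * (1 + η) := by
  obtain ⟨ρ, hρ, htube⟩ := tube hM hC L hη
  refine ⟨ρ, hρ, fun q hq q' ε a b hε hερ hab hclose u hu => ?_⟩
  set v := ε⁻¹ • (q' - q) with hvdef
  have hq' : q' = q + ε • v := by rw [hvdef, smul_inv_smul₀ hε.ne']; abel
  have hva : dist v (a, b) < ρ := by
    refine lt_of_le_of_lt ?_ (half_lt_self hρ)
    have e : v - (a, b) = ε⁻¹ • (q' - q - ε • (a, b)) := by
      rw [smul_sub ε⁻¹, inv_smul_smul₀ hε.ne']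
    rw [dist_eq_norm, e, norm_smul, norm_inv, Real.norm_eq_abs, abs_of_pos hε, inv_mul_le_iff₀ hε]
    exact hclose
  have hDeq : Q q' - Q q = ε • secant Q (q, v, ε) := by rw [hq']; exact secant_eq hC.smooth q v ε
  have hpt : ∀ s ∈ Icc (0 : ℝ) 1,
      √(gq h (lift u (Q q) + s • (lift u (Q q') - lift u (Q q))) (lift u (Q q') - lift u (Q q)))
        ≤ ε * (1 + η) := by
    intro s hs
    rw [lift_add, lift_sub, gq_lift hu, hDeq, smul_smul, gq2_smul,
      Real.sqrt_mul (sq_nonneg ε), Real.sqrt_sq hε.le]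
    refine mul_le_mul_of_nonneg_left (Real.sqrt_le_iff.2 ⟨by linarith, le_of_lt ?_⟩) hε.le
    exact htube q hq a b v ε s hab hva (by rwa [abs_of_pos hε]) hs
  refine (gdist_le_segLen hM _ _).trans ?_
  calc segLen h (lift u (Q q)) (lift u (Q q'))
      ≤ ∫ _s in (0 : ℝ)..1, ε * (1 + η) := by
        refine intervalIntegral.integral_mono_on zero_le_one ?_ intervalIntegrable_const hpt
        exact (((continuous_gq hM).comp ((continuous_const.add
          (continuous_id.smul continuous_const)).prodMk continuous_const)).sqrt).intervalIntegrable _ _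
    _ = ε * (1 + η) := by simp

theorem gvol_real_mono (hM : Met h) {n : ℕ} {A B : Set (Sp n)} (hB : IsCompact B) (hAB : A ⊆ B) :
    (gvol h).real A ≤ (gvol h).real B :=
  measureReal_mono hAB (gvol_lt_top hM hB).ne

/-- One step, uniform on the sets of a ball. -/
theorem step (hM : Met h) (R : ℝ) {η : ℝ} (hη : 0 < η) :
    ∃ ε0 > 0, ∀ K : Set (Sp (k + 2)), IsCompact K → K ⊆ closedBall 0 R → 0 < (gvol h).real K →
      ∀ ε ∈ Ioc 0 ε0,
        (gvol h).real K ^ (((k : ℝ) + 2)⁻¹) + ε * omega (k + 2) ^ (((k : ℝ) + 2)⁻¹)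
          ≤ (gvol h).real (thick h (ε * (1 + η)) K) ^ (((k : ℝ) + 2)⁻¹) := by
  obtain ⟨Q, Jd, E, hC⟩ := exists_chart hM
  set W : Set (ℝ × ℝ) := Q.symm '' (mer '' closedBall (0 : Sp (k + 2)) R)
  have hW : IsCompact W := ((isCompact_closedBall _ _).image continuous_mer).image Q.symm.continuous
  obtain ⟨L, hL⟩ := hW.isBounded.exists_norm_le
  obtain ⟨ρ, hρ, hmove⟩ := short_move (k := k) hM hC L hη
  obtain ⟨ε1, hε1, htr⟩ := transport (k := k) hC L (half_pos hρ)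
  refine ⟨min ε1 (ρ / 2), lt_min hε1 (half_pos hρ), fun K hK hKR hV ε hε => ?_⟩
  have hε0 : 0 < ε := hε.1
  set δ := ε * (1 + η)
  have hδ : 0 ≤ δ := by positivity
  obtain ⟨K', hK', hK'R, hcap, hvol, hthick⟩ := exists_cap hM hK hKR norm_axisVec
  set A : Set (ℝ × ℝ) := Q.symm '' (mer '' K')
  have hA : IsCompact A := (hK'.image continuous_mer).image Q.symm.continuous
  have hsnd : ∀ q, 0 ≤ (Q q).2 → 0 ≤ q.2 := fun q hq => by
    rw [hC.snd] at hq
    exact nonneg_of_mul_nonneg_left hq (lt_of_lt_of_le one_pos (hC.E_one q))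
  have hAbox : A ⊆ Icc (-L) L ×ˢ Icc 0 L := by
    rintro q ⟨p, ⟨z, hz, rfl⟩, rfl⟩
    have hn := hL (Q.symm (mer z)) ⟨_, ⟨z, hK'R hz, rfl⟩, rfl⟩
    rw [Prod.norm_def, max_le_iff, Real.norm_eq_abs, Real.norm_eq_abs] at hn
    have h2 : 0 ≤ (Q.symm (mer z)).2 := hsnd _ (by rw [Q.apply_symm_apply]; exact Real.sqrt_nonneg _)
    exact ⟨abs_le.1 hn.1, h2, (abs_le.1 hn.2).2⟩
  have hK'eq : {z : Sp (k + 2) | mer z ∈ Q '' A} = K' := by
    ext z
    simp only [A, image_image, Q.apply_symm_apply, mem_ofPred_eq]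
    refine ⟨fun ⟨y, hy, e⟩ => ?_, fun hz => ⟨z, hz, rfl⟩⟩
    obtain ⟨u, hu, hyl⟩ := exists_lift y
    obtain ⟨u', hu', hzl⟩ := exists_lift z
    refine hcap y z ?_ ?_ hy
    · refine (pow_left_inj₀ (norm_nonneg _) (norm_nonneg _) two_ne_zero).1 ?_
      rw [hyl, hzl, normSq_lift hu, normSq_lift hu']
      exact congrArg (fun p : ℝ × ℝ => p.1 ^ 2 + p.2 ^ 2) e
    · rw [inner_axisVec, inner_axisVec]
      exact le_of_eq (congrArg Prod.fst e)
  set T := thick h δ K'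
  have hT : IsCompact T := isCompact_thick hM hK' δ
  set B : Set (ℝ × ℝ) := {q | 0 ≤ q.2 ∧ ∀ u ∈ Orth k, lift u (Q q) ∈ T}
  have hQpos : ∀ q : ℝ × ℝ, 0 ≤ q.2 → 0 ≤ (Q q).2 := fun q hq => by
    rw [hC.snd]; exact mul_nonneg hq (zero_le_one.trans (hC.E_one q))
  have hB : IsCompact B := by
    obtain ⟨u0, hu0⟩ := exists_orth k
    refine ((hT.image continuous_mer).image Q.symm.continuous).of_isClosed_subset ?_ ?_
    · simp only [B, ofPred_and, ofPred_forall]
      refine (isClosed_le continuous_const continuous_snd).inter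
        (isClosed_biInter fun u _ => ?_)
      exact hT.isClosed.preimage (by unfold lift; fun_prop)
    · intro q hq
      exact ⟨Q q, ⟨_, hq.2 u0 hu0, mer_lift hu0 (hQpos q hq.1)⟩, Q.symm_apply_apply q⟩
  have hBT : {z : Sp (k + 2) | mer z ∈ Q '' B} ⊆ T := by
    rintro z ⟨q, hq, e⟩
    obtain ⟨u, hu, hzl⟩ := exists_lift z
    rw [hzl, ← e]
    exact hq.2 u hu
  have hVK : (gvol h).real K ≤ (gvol h).real K' :=
    ENNReal.toReal_mono (gvol_lt_top hM hK').ne hvol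
  have hTK : (gvol h).real T ≤ (gvol h).real (thick h δ K) :=
    ENNReal.toReal_mono (gvol_lt_top hM (isCompact_thick hM hK δ)).ne (hthick δ hδ)
  have hsA := sphereArea_pos (k := k)
  have hmA := gvol_mer (k := k) hM hC hA
  rw [hK'eq] at hmA
  have hm0 : 0 < mass k Jd E A := by
    refine pos_of_mul_pos_right (a := sphereArea k) ?_ hsA.le
    linarith
  have hstep := htr A hA hAbox hm0 ε ⟨hε0, hε.2.trans (min_le_left _ _)⟩ B hB
    (fun q' hq' ⟨q, hq, a, b, hab, hclose⟩ => ⟨hq', fun u hu => ?_⟩)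
  · set p := ((k : ℝ) + 2)⁻¹
    have hp : 0 ≤ p := by positivity
    have hnn : ∀ S : Set (ℝ × ℝ), IsCompact S → 0 ≤ mass k Jd E S := fun S hS => by
      have := gvol_mer (k := k) hM hC hS
      exact nonneg_of_mul_nonneg_right (this ▸ measureReal_nonneg) hsA
    have hbc : 0 ≤ ballConst k := nonneg_of_mul_nonneg_right
      (omega_eq (k := k) ▸ (measureReal_nonneg : 0 ≤ omega (k + 2))) hsA
    calc (gvol h).real K ^ p + ε * omega (k + 2) ^ p
        ≤ (gvol h).real K' ^ p + ε * omega (k + 2) ^ p := by gcongr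
      _ = sphereArea k ^ p * (mass k Jd E A ^ p + ε * ballConst k ^ p) := by
          rw [hmA, omega_eq, Real.mul_rpow hsA.le (hnn A hA), Real.mul_rpow hsA.le hbc]
          ring
      _ ≤ sphereArea k ^ p * mass k Jd E B ^ p :=
          mul_le_mul_of_nonneg_left hstep (by positivity)
      _ = (gvol h).real {z : Sp (k + 2) | mer z ∈ Q '' B} ^ p := by
          rw [gvol_mer hM hC hB, Real.mul_rpow hsA.le (hnn B hB)]
      _ ≤ _ := Real.rpow_le_rpow measureReal_nonneg ((gvol_real_mono hM hT hBT).trans hTK) hp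
  · refine ⟨lift u (Q q), ?_, ?_⟩
    · rw [← hK'eq, mem_ofPred_eq, mer_lift hu (hQpos q (hAbox hq).2.1)]
      exact ⟨q, hq, rfl⟩
    · rw [gdist_comm hM]
      exact hmove q (hAbox hq) q' ε a b hε0
        (lt_of_le_of_lt (hε.2.trans (min_le_right _ _)) (half_lt_self hρ)) hab hclose u hu

/-- The Brunn-Minkowski form of the sharp isoperimetric inequality. -/
theorem brunn_minkowski (hM : Met h) {K : Set (Sp (k + 2))} (hK : IsCompact K)
    (hV : 0 < (gvol h).real K) {δ : ℝ} (hδ : 0 ≤ δ) :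
    (gvol h).real K ^ (((k : ℝ) + 2)⁻¹) + δ * omega (k + 2) ^ (((k : ℝ) + 2)⁻¹)
      ≤ (gvol h).real (thick h δ K) ^ (((k : ℝ) + 2)⁻¹) := by
  set p := ((k : ℝ) + 2)⁻¹
  have hp : 0 ≤ p := by positivity
  have hw : 0 ≤ omega (k + 2) ^ p := Real.rpow_nonneg measureReal_nonneg _
  rcases hδ.eq_or_lt with rfl | hδ0
  · rw [zero_mul, add_zero]
    exact Real.rpow_le_rpow measureReal_nonneg
      (gvol_real_mono hM (isCompact_thick hM hK 0) (subset_thick hM K le_rfl)) hp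
  refine le_of_forall_pos_le_add fun γ hγ => ?_
  set η := γ / (δ * omega (k + 2) ^ p + 1) with hηdef
  have hη : 0 < η := by positivity
  obtain ⟨R0, hR0⟩ := hK.isBounded.subset_closedBall (0 : Sp (k + 2))
  obtain ⟨R, hR⟩ := exists_bound_thick (n := k + 2) hM R0 δ
  obtain ⟨ε0, hε0, hstep⟩ := step (k := k) hM R hη
  obtain ⟨N, hN⟩ := exists_nat_gt (δ / ε0)
  have hN0 : (0 : ℝ) < N := lt_of_le_of_lt (by positivity) hN
  set σ := δ / N / (1 + η) with hσdef
  have hσ : σ ∈ Ioc 0 ε0 := by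
    refine ⟨by positivity, ?_⟩
    rw [hσdef, div_le_iff₀ (by positivity), div_le_iff₀ hN0]
    rw [div_lt_iff₀ hε0] at hN
    nlinarith [mul_nonneg (mul_nonneg hε0.le hη.le) hN0.le]
  have hσN : (N : ℝ) * (σ * (1 + η)) = δ := by rw [hσdef]; field_simp
  have hmono : ∀ a b : ℝ, a ≤ b → thick h a K ⊆ thick h b K :=
    fun a b hab x ⟨y, hy, hxy⟩ => ⟨y, hy, hxy.trans hab⟩
  have hj : ∀ j : ℕ, j ≤ N → (gvol h).real K ^ p + j * σ * omega (k + 2) ^ p
      ≤ (gvol h).real (thick h (j * (σ * (1 + η))) K) ^ p := by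
    intro j
    induction j with
    | zero =>
      intro _
      simpa using Real.rpow_le_rpow measureReal_nonneg
        (gvol_real_mono hM (isCompact_thick hM hK 0) (subset_thick hM K le_rfl)) hp
    | succ j ih =>
      intro hjN
      have hjle : (j : ℝ) * (σ * (1 + η)) ≤ δ := by
        rw [← hσN]
        have : (j : ℝ) ≤ N := by exact_mod_cast (Nat.le_of_succ_le hjN)
        have := hσ.1
        gcongr
      set S := thick h ((j : ℝ) * (σ * (1 + η))) K
      have hS : IsCompact S := isCompact_thick hM hK _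
      have hSR : S ⊆ closedBall 0 R := (hmono _ _ hjle).trans (hR K hR0)
      have hS0 : 0 < (gvol h).real S :=
        hV.trans_le (gvol_real_mono hM hS (subset_thick hM K (by have := hσ.1; positivity)))
      refine le_trans ?_ ((hstep S hS hSR hS0 σ hσ).trans
        (Real.rpow_le_rpow measureReal_nonneg (gvol_real_mono hM (isCompact_thick hM hK _)
          ((thick_thick hM K _ _).trans (hmono _ _ (le_of_eq (by push_cast; ring))))) hp))
      have := ih (Nat.le_of_succ_le hjN)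
      push_cast
      linarith
  have hfin := hj N le_rfl
  rw [hσN, show (N : ℝ) * σ = δ / (1 + η) by rw [hσdef]; field_simp] at hfin
  have hloss : δ * omega (k + 2) ^ p ≤ δ / (1 + η) * omega (k + 2) ^ p + γ := by
    have e1 : δ - δ / (1 + η) ≤ δ * η := by
      rw [sub_le_iff_le_add, ← sub_le_iff_le_add', le_div_iff₀ (by positivity)]
      nlinarith [mul_nonneg hδ0.le (mul_nonneg hη.le hη.le)]
    have e2 : δ * η * omega (k + 2) ^ p ≤ γ := by
      rw [hηdef, mul_div_assoc', div_mul_eq_mul_div, div_le_iff₀ (by positivity)]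
      nlinarith [hγ.le]
    nlinarith [mul_le_mul_of_nonneg_right e1 hw]
  linarith

end

end Vale.Agent.P219.Sharp
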