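import Vale.Agent.P219.Sharp.GeoBase

/-!
# P219: Fermi coordinates about the axis form a chart
-/

namespace Vale.Agent.P219.Sharp

open MeasureTheory Metric Set Filter Real
open scoped RealInnerProductSpace Topology

noncomputable section

variable {h : ℝ → ℝ}

/-- A function of two variables with continuous partial derivatives. -/
theorem hasStrictFDerivAt_two {f f1 f2 : ℝ → ℝ → ℝ}
    (h1 : ∀ x y, HasDerivAt (fun t => f t y) (f1 x y) x)
    (h2 : ∀ x y, HasDerivAt (f x) (f2 x y) y)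
    (c1 : Continuous ↿f1) (c2 : Continuous ↿f2) (p : ℝ × ℝ) :
    HasStrictFDerivAt (fun q : ℝ × ℝ => f q.1 q.2)
      (f1 p.1 p.2 • ContinuousLinearMap.fst ℝ ℝ ℝ + f2 p.1 p.2 • ContinuousLinearMap.snd ℝ ℝ ℝ) p := by
  have hh := hasStrictFDerivAt_uncurry_coprod (𝕜 := ℝ) (u := p) (f := f)
    (f₁ := fun x y => f1 x y • ContinuousLinearMap.id ℝ ℝ)
    (f₂ := fun x y => f2 x y • ContinuousLinearMap.id ℝ ℝ)
    (Eventually.of_forall fun v => (h1 v.1 v.2).hasFDerivAt.congr_fderiv (by ext; simp [Function.HasUncurry.uncurry]))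
    (Eventually.of_forall fun v => (h2 v.1 v.2).hasFDerivAt.congr_fderiv (by ext; simp [Function.HasUncurry.uncurry]))
    (c1.smul continuous_const).continuousAt (c2.smul continuous_const).continuousAt
  refine hh.congr_fderiv ?_
  ext <;> simp [Function.HasUncurry.uncurry]

theorem hasFDerivAt_psi (hM : Met h) (p : ℝ × ℝ) :
    HasFDerivAt (fun q : ℝ × ℝ => psi h q.1 q.2)
      ((Dw h p.1 p.2 - p.2 * Nc h (p.1 ^ 2 + p.2 ^ 2)) • ContinuousLinearMap.fst ℝ ℝ ℝ
        + (p.1 * Nc h (p.1 ^ 2 + p.2 ^ 2)) • ContinuousLinearMap.snd ℝ ℝ ℝ) p := by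
  have := continuous_Nc hM
  have := continuous_Dw hM
  exact (hasStrictFDerivAt_two (f1 := fun c w => Dw h c w - w * Nc h (c ^ 2 + w ^ 2))
    (f2 := fun c w => c * Nc h (c ^ 2 + w ^ 2)) (hasDerivAt_psi_c hM) (hasDerivAt_psi_w hM)
    (by fun_prop) (by fun_prop) p).hasFDerivAt

theorem hasFDerivAt_Sw (hM : Met h) (p : ℝ × ℝ) :
    HasFDerivAt (fun q : ℝ × ℝ => Sw h q.1 q.2)
      ((-p.1 * Dw h p.1 p.2) • ContinuousLinearMap.fst ℝ ℝ ℝ
        + h (p.1 ^ 2 + p.2 ^ 2) • ContinuousLinearMap.snd ℝ ℝ ℝ) p := by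
  have := hM.cont
  have := continuous_Dw hM
  exact (hasStrictFDerivAt_two (f1 := fun c w => -c * Dw h c w)
    (f2 := fun c w => h (c ^ 2 + w ^ 2)) (hasDerivAt_Sw_c hM) (hasDerivAt_Sw_w hM)
    (by fun_prop) (by fun_prop) p).hasFDerivAt

theorem Sw_strictMono (hM : Met h) (c : ℝ) : StrictMono (Sw h c) :=
  strictMono_of_deriv_pos fun w => by
    rw [(hasDerivAt_Sw_w hM c w).deriv]; exact hM.pos _ (by positivity)

theorem Sw_surjective (hM : Met h) (c : ℝ) : Function.Surjective (Sw h c) := by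
  have := hM.cont
  have top : Tendsto (Sw h c) atTop atTop := by
    have h1 : Tendsto (fun w : ℝ => (∫ t in (0 : ℝ)..(|c| + w), h (t ^ 2)) - ∫ t in (0 : ℝ)..|c|, h (t ^ 2))
        atTop atTop :=
      tendsto_atTop_add_const_right _ _ (hM.complete.comp (tendsto_atTop_add_const_left _ _ tendsto_id))
    refine tendsto_atTop_mono' _ ?_ h1
    filter_upwards [eventually_ge_atTop (0 : ℝ)] with w hw
    have hi : ∀ a b, IntervalIntegrable (fun t => h (t ^ 2)) volume a b := fun a b =>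
      (by fun_prop : Continuous fun t : ℝ => h (t ^ 2)).intervalIntegrable _ _
    rw [intervalIntegral.integral_interval_sub_left (hi _ _) (hi _ _)]
    have e := intervalIntegral.integral_comp_add_left (a := 0) (b := w) (fun t => h (t ^ 2)) |c|
    rw [add_zero] at e
    rw [← e, Sw]
    refine intervalIntegral.integral_mono_on hw ((by fun_prop : Continuous fun t : ℝ =>
      h ((|c| + t) ^ 2)).intervalIntegrable _ _) ((by fun_prop : Continuous fun t : ℝ =>
      h (c ^ 2 + t ^ 2)).intervalIntegrable _ _) fun t ht => ?_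
    refine hM.antitone (mem_Ici.2 (by positivity)) (mem_Ici.2 (sq_nonneg _)) ?_
    nlinarith [sq_abs c, abs_nonneg c, ht.1]
  have bot : Tendsto (Sw h c) atBot atBot := by
    have h1 := tendsto_neg_atTop_atBot.comp (top.comp tendsto_neg_atBot_atTop)
    refine h1.congr fun w => ?_
    simp [Sw_neg]
  exact (continuous_iff_continuousAt.2 fun w =>
    (hasDerivAt_Sw_w hM c w).continuousAt).surjective top bot

/-- The parameter at arc length `s`. -/
def Wi (h : ℝ → ℝ) (c s : ℝ) : ℝ := Function.invFun (Sw h c) s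

theorem Sw_Wi (hM : Met h) (c s : ℝ) : Sw h c (Wi h c s) = s :=
  Function.invFun_eq (Sw_surjective hM c s)

theorem Wi_Sw (hM : Met h) (c w : ℝ) : Wi h c (Sw h c w) = w :=
  Function.leftInverse_invFun (Sw_strictMono hM c).injective w

theorem Wi_monotone (hM : Met h) (c : ℝ) : Monotone (Wi h c) := fun a b hab =>
  (Sw_strictMono hM c).le_iff_le.1 (by rwa [Sw_Wi hM, Sw_Wi hM])

theorem continuous_Wi (hM : Met h) : Continuous fun p : ℝ × ℝ => Wi h p.1 p.2 := by
  refine OrderTopology.continuous_iff.2 fun x => ⟨?_, ?_⟩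
  · have : (fun p : ℝ × ℝ => Wi h p.1 p.2) ⁻¹' Ioi x = {p | Sw h p.1 x < p.2} := by
      ext p
      simp only [mem_preimage, mem_Ioi, mem_ofPred_eq]
      rw [← (Sw_strictMono hM p.1).lt_iff_lt, Sw_Wi hM]
    rw [this]
    exact isOpen_lt ((continuous_Sw hM).comp (continuous_fst.prodMk continuous_const)) continuous_snd
  · have : (fun p : ℝ × ℝ => Wi h p.1 p.2) ⁻¹' Iio x = {p | p.2 < Sw h p.1 x} := by
      ext p
      simp only [mem_preimage, mem_Iio, mem_ofPred_eq]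
      rw [← (Sw_strictMono hM p.1).lt_iff_lt, Sw_Wi hM]
    rw [this]
    exact isOpen_lt continuous_snd ((continuous_Sw hM).comp (continuous_fst.prodMk continuous_const))

theorem hasFDerivAt_Wi (hM : Met h) (p : ℝ × ℝ) :
    HasFDerivAt (fun q : ℝ × ℝ => (q.1, Wi h q.1 q.2))
      ((ContinuousLinearMap.fst ℝ ℝ ℝ).prod
        ((h (p.1 ^ 2 + Wi h p.1 p.2 ^ 2))⁻¹ • (ContinuousLinearMap.snd ℝ ℝ ℝ
          + (p.1 * Dw h p.1 (Wi h p.1 p.2)) • ContinuousLinearMap.fst ℝ ℝ ℝ))) p := by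
  set w := Wi h p.1 p.2
  set B := h (p.1 ^ 2 + w ^ 2) with hBdef
  set A := -p.1 * Dw h p.1 w
  have hB : B ≠ 0 := (hM.pos _ (by positivity)).ne'
  let L : (ℝ × ℝ) ≃L[ℝ] ℝ × ℝ := ContinuousLinearEquiv.equivOfInverse
    ((ContinuousLinearMap.fst ℝ ℝ ℝ).prod
      (A • ContinuousLinearMap.fst ℝ ℝ ℝ + B • ContinuousLinearMap.snd ℝ ℝ ℝ))
    ((ContinuousLinearMap.fst ℝ ℝ ℝ).prod
      (B⁻¹ • (ContinuousLinearMap.snd ℝ ℝ ℝ - A • ContinuousLinearMap.fst ℝ ℝ ℝ)))
    (fun v => by ext <;> simp; field_simp)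
    (fun v => by ext <;> simp; field_simp; ring)
  have hf : HasFDerivAt (fun q : ℝ × ℝ => (q.1, Sw h q.1 q.2)) (L : ℝ × ℝ →L[ℝ] ℝ × ℝ) (p.1, w) :=
    hasFDerivAt_fst.prodMk (hasFDerivAt_Sw hM (p.1, w))
  have := hf.of_local_left_inverse (g := fun q : ℝ × ℝ => (q.1, Wi h q.1 q.2))
    (continuous_fst.prodMk (continuous_Wi hM)).continuousAt
    (Eventually.of_forall fun q => by simp [Sw_Wi hM])
  refine this.congr_fderiv ?_
  ext <;> simp [L, A]

theorem Pm_normSq (p : ℝ × ℝ) : (Pm h p).1 ^ 2 + (Pm h p).2 ^ 2 = p.1 ^ 2 + p.2 ^ 2 := by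
  simp only [Pm]
  linear_combination (p.1 ^ 2 + p.2 ^ 2) * sin_sq_add_cos_sq (psi h p.1 p.2)

/-- The derivative of the rotation map. -/
def dPm (h : ℝ → ℝ) (p v : ℝ × ℝ) : ℝ × ℝ :=
  let t := (Dw h p.1 p.2 - p.2 * Nc h (p.1 ^ 2 + p.2 ^ 2)) * v.1
    + p.1 * Nc h (p.1 ^ 2 + p.2 ^ 2) * v.2
  (cos (psi h p.1 p.2) * v.1 + sin (psi h p.1 p.2) * v.2 + t * (Pm h p).2,
    -sin (psi h p.1 p.2) * v.1 + cos (psi h p.1 p.2) * v.2 - t * (Pm h p).1)

theorem exists_fderiv_Pm (hM : Met h) (p : ℝ × ℝ) :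
    ∃ L : ℝ × ℝ →L[ℝ] ℝ × ℝ, (∀ v, L v = dPm h p v) ∧ HasFDerivAt (Pm h) L p := by
  have hp := hasFDerivAt_psi hM p
  have h1 := ((hasFDerivAt_fst (𝕜 := ℝ) (p := p)).mul hp.cos).add
    ((hasFDerivAt_snd (𝕜 := ℝ) (p := p)).mul hp.sin)
  have h2 := ((hasFDerivAt_fst (𝕜 := ℝ) (p := p)).neg.mul hp.sin).add
    ((hasFDerivAt_snd (𝕜 := ℝ) (p := p)).mul hp.cos)
  refine ⟨_, fun v => ?_, h1.prodMk h2⟩
  simp only [dPm, Pm]
  ext <;> simp <;> ring

/-- The chart map. -/
def Qf (h : ℝ → ℝ) (q : ℝ × ℝ) : ℝ × ℝ := Pm h (q.1, Wi h q.1 q.2)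

/-- The derivative of the chart map. -/
def dQ (h : ℝ → ℝ) (q v : ℝ × ℝ) : ℝ × ℝ :=
  let w := Wi h q.1 q.2
  dPm h (q.1, w) (v.1, (v.2 + q.1 * Dw h q.1 w * v.1) / h (q.1 ^ 2 + w ^ 2))

theorem exists_fderiv_Qf (hM : Met h) (q : ℝ × ℝ) :
    ∃ L : ℝ × ℝ →L[ℝ] ℝ × ℝ, (∀ v, L v = dQ h q v) ∧ HasFDerivAt (Qf h) L q := by
  obtain ⟨L, hL, hd⟩ := exists_fderiv_Pm hM (q.1, Wi h q.1 q.2)
  refine ⟨_, fun v => ?_, hd.comp q (hasFDerivAt_Wi hM q)⟩
  simp only [ContinuousLinearMap.comp_apply, hL, dQ]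
  congr 1
  ext <;> simp; ring

theorem fderiv_Qf_apply (hM : Met h) (q v : ℝ × ℝ) : fderiv ℝ (Qf h) q v = dQ h q v := by
  obtain ⟨L, hL, hd⟩ := exists_fderiv_Qf hM q
  rw [hd.fderiv, hL]

theorem continuous_Pm (hM : Met h) : Continuous (Pm h) := by
  have := continuous_psi hM
  unfold Pm
  fun_prop

theorem contDiff_Qf (hM : Met h) : ContDiff ℝ 1 (Qf h) := by
  refine contDiff_one_iff_fderiv.2 ⟨fun q => ?_, ?_⟩
  · obtain ⟨L, -, hd⟩ := exists_fderiv_Qf hM q
    exact hd.differentiableAt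
  · refine continuous_clm_apply.2 fun v => ?_
    simp only [fderiv_Qf_apply hM]
    have := continuous_psi hM
    have := continuous_Dw hM
    have := continuous_Nc hM
    have := continuous_Pm hM
    have := continuous_Wi hM
    have := hM.cont
    have hne : ∀ q : ℝ × ℝ, h (q.1 ^ 2 + Wi h q.1 q.2 ^ 2) ≠ 0 :=
      fun q => (hM.pos _ (by positivity)).ne'
    have hy : Continuous fun q : ℝ × ℝ => (v.2 + q.1 * Dw h q.1 (Wi h q.1 q.2) * v.1)
        / h (q.1 ^ 2 + Wi h q.1 q.2 ^ 2) :=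
      Continuous.div₀ (by fun_prop) (by fun_prop) hne
    simp only [dQ, dPm]
    fun_prop

/-- The polar angle of the image. -/
def th (h : ℝ → ℝ) (R φ : ℝ) : ℝ := φ - psi h (R * cos φ) (R * sin φ)

theorem hasDerivAt_th (hM : Met h) (R φ : ℝ) :
    HasDerivAt (th h R) (Jw h (R * cos φ) (R * sin φ)) φ := by
  have hc : HasDerivAt (fun t => (R * cos t, R * sin t)) (R * -sin φ, R * cos φ) φ :=
    ((hasDerivAt_cos φ).const_mul R).prodMk ((hasDerivAt_sin φ).const_mul R)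
  refine ((hasDerivAt_id φ).sub
    ((hasFDerivAt_psi hM (R * cos φ, R * sin φ)).comp_hasDerivAt φ hc)).congr_deriv ?_
  have h1 := mul_Nc hM ((R * cos φ) ^ 2 + (R * sin φ) ^ 2)
  simp [Jw]
  linear_combination -h1

theorem th_strictMono (hM : Met h) (R : ℝ) : StrictMono (th h R) :=
  strictMono_of_deriv_pos fun φ => by
    rw [(hasDerivAt_th hM R φ).deriv]; exact Jw_pos hM _ _

theorem th_special (R : ℝ) : th h R 0 = 0 ∧ th h R π = π ∧ th h R (-π) = -π := by
  simp [th, psi_zero]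

theorem Pm_polar (R φ : ℝ) :
    Pm h (R * cos φ, R * sin φ) = (R * cos (th h R φ), R * sin (th h R φ)) := by
  simp only [Pm, th, cos_sub, sin_sub]
  ext <;> ring

theorem exists_polar (p : ℝ × ℝ) :
    ∃ R φ, 0 ≤ R ∧ φ ∈ Ioc (-π) π ∧ p = (R * cos φ, R * sin φ) ∧ (0 ≤ p.2 → 0 ≤ φ) := by
  refine ⟨‖(⟨p.1, p.2⟩ : ℂ)‖, Complex.arg ⟨p.1, p.2⟩, norm_nonneg _, Complex.arg_mem_Ioc _, ?_,
    fun hp => Complex.arg_nonneg_iff.2 hp⟩
  rw [Complex.norm_mul_cos_arg, Complex.norm_mul_sin_arg]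

theorem Pm_bijective (hM : Met h) : Function.Bijective (Pm h) := by
  constructor
  · intro p p' e
    obtain ⟨R, φ, hR, hφ, rfl, -⟩ := exists_polar p
    obtain ⟨R', φ', hR', hφ', rfl, -⟩ := exists_polar p'
    have hn := Pm_normSq (h := h) (R * cos φ, R * sin φ)
    rw [e, Pm_normSq] at hn
    have hRR : R = R' := by
      refine (pow_left_inj₀ hR hR' two_ne_zero).1 ?_
      linear_combination R' ^ 2 * sin_sq_add_cos_sq φ' - R ^ 2 * sin_sq_add_cos_sq φ - hn
    subst hRR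
    rcases hR.eq_or_lt with rfl | hR0
    · simp
    rw [Pm_polar, Pm_polar, Prod.mk.injEq, mul_right_inj' hR0.ne', mul_right_inj' hR0.ne'] at e
    have hm := th_strictMono hM R
    have mem : ∀ a ∈ Ioc (-π) π, th h R a ∈ Ioc (-π) π := fun a ha =>
      ⟨(th_special (h := h) R).2.2 ▸ hm ha.1, (th_special (h := h) R).2.1 ▸ hm.monotone ha.2⟩
    have e2 : th h R φ = th h R φ' := by
      rw [← Complex.arg_cos_add_sin_mul_I (mem φ hφ), ← Complex.arg_cos_add_sin_mul_I (mem φ' hφ'),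
        ← Complex.ofReal_cos, ← Complex.ofReal_sin, e.1, e.2, Complex.ofReal_cos, Complex.ofReal_sin]
    rw [hm.injective e2]
  · intro y
    obtain ⟨R, a, -, ha, rfl, -⟩ := exists_polar y
    obtain ⟨φ, -, hφ⟩ := intermediate_value_Icc (by linarith [pi_pos] : -π ≤ π)
      (fun φ _ => (hasDerivAt_th hM R φ).continuousAt.continuousWithinAt)
      (show a ∈ Icc (th h R (-π)) (th h R π) by
        rw [(th_special (h := h) R).2.2, (th_special (h := h) R).2.1]; exact Ioc_subset_Icc_self ha)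
    exact ⟨(R * cos φ, R * sin φ), by rw [Pm_polar, hφ]⟩

theorem Pm_snd_nonneg (hM : Met h) {p : ℝ × ℝ} (hp : 0 ≤ p.2) : 0 ≤ (Pm h p).2 := by
  obtain ⟨R, φ, hR, hφ, rfl, h0⟩ := exists_polar p
  rw [Pm_polar]
  have hm := th_strictMono hM R
  refine mul_nonneg hR (sin_nonneg_of_nonneg_of_le_pi ?_ ?_)
  · exact (th_special (h := h) R).1 ▸ hm.monotone (h0 hp)
  · exact (th_special (h := h) R).2.1 ▸ hm.monotone hφ.2

theorem Qf_bijective (hM : Met h) : Function.Bijective (Qf h) := by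
  refine (Pm_bijective hM).comp ⟨fun q q' e => ?_, fun p => ⟨(p.1, Sw h p.1 p.2), ?_⟩⟩
  · simp only [Prod.mk.injEq] at e
    obtain ⟨e1, e2⟩ := e
    refine Prod.ext e1 ?_
    rw [← Sw_Wi hM q.1 q.2, e2, e1, Sw_Wi hM]
  · simp [Wi_Sw hM]

/-- The homeomorphism underlying the chart. -/
def chartHomeo (hM : Met h) : ℝ × ℝ ≃ₜ ℝ × ℝ :=
  (Equiv.ofBijective (Qf h) (Qf_bijective hM)).toHomeomorphOfContinuousOpen
    (contDiff_Qf hM).continuous (by
      refine isOpenMap_iff_nhds_le.2 fun q => le_of_eq ?_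
      have hs : HasStrictFDerivAt (Qf h) (fderiv ℝ (Qf h) q) q :=
        (contDiff_Qf hM).contDiffAt.hasStrictFDerivAt one_ne_zero
      refine (hs.map_nhds_eq_of_surj (LinearMap.range_eq_top.2 ?_)).symm
      refine LinearMap.injective_iff_surjective.1 ?_
      rw [← LinearMap.ker_eq_bot]
      refine (Submodule.eq_bot_iff _).2 fun v hv => ?_
      have hv' : dQ h q v = 0 := by
        rw [← fderiv_Qf_apply hM]
        exact hv
      have hj := Jw_pos hM q.1 (Wi h q.1 q.2)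
      have hB := hM.pos (q.1 ^ 2 + Wi h q.1 q.2 ^ 2) (by positivity)
      have hu := mul_Nc hM (q.1 ^ 2 + Wi h q.1 q.2 ^ 2)
      simp only [dQ, dPm, Pm, Prod.ext_iff, Prod.fst_zero, Prod.snd_zero] at hv'
      obtain ⟨h1, h2⟩ := hv'
      set w := Wi h q.1 q.2
      set B := h (q.1 ^ 2 + w ^ 2)
      set N := Nc h (q.1 ^ 2 + w ^ 2)
      set D := Dw h q.1 w
      set y := (v.2 + q.1 * D * v.1) / B with hy
      set sv := sin (psi h q.1 w)
      set cv := cos (psi h q.1 w)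
      have hsc : sv ^ 2 + cv ^ 2 = 1 := sin_sq_add_cos_sq _
      have k1 : v.1 * (1 + w * (D - w * N)) + y * (q.1 * N * w) = 0 := by
        linear_combination cv * h1 - sv * h2
          - (v.1 + w * ((D - w * N) * v.1 + q.1 * N * y)) * hsc
      have k2 : -v.1 * (q.1 * (D - w * N)) + y * (1 - q.1 ^ 2 * N) = 0 := by
        linear_combination sv * h1 + cv * h2
          - (y - q.1 * ((D - w * N) * v.1 + q.1 * N * y)) * hsc
      have k3 : v.1 * (B + w * D) = 0 := by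
        linear_combination (1 - q.1 ^ 2 * N) * k1 - q.1 * N * w * k2 + v.1 * hu
      have ha : v.1 = 0 := (mul_eq_zero.1 k3).resolve_right hj.ne'
      have hyB : y * (B + w * D) = 0 := by
        linear_combination q.1 * (D - w * N) * k1 + (1 + w * (D - w * N)) * k2 + y * hu
      have hy0 : y = 0 := (mul_eq_zero.1 hyB).resolve_right hj.ne'
      rw [hy, ha, div_eq_zero_iff] at hy0
      exact Prod.ext ha (by simpa using hy0.resolve_right hB.ne'))

theorem det_two (L : ℝ × ℝ →L[ℝ] ℝ × ℝ) :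
    L.det = (L (1, 0)).1 * (L (0, 1)).2 - (L (0, 1)).1 * (L (1, 0)).2 := by
  rw [ContinuousLinearMap.det, ← LinearMap.det_toMatrix (Module.Basis.finTwoProd ℝ),
    Matrix.det_fin_two]
  simp [LinearMap.toMatrix_apply]

/-- The derivative of the orbit factor along the geodesic. -/
def Zq (h : ℝ → ℝ) (c w : ℝ) : ℝ :=
  (cos (psi h c w) - c * Nc h (c ^ 2 + w ^ 2) * (Pm h (c, w)).1) / h (c ^ 2 + w ^ 2)

theorem continuous_Zq (hM : Met h) : Continuous fun p : ℝ × ℝ => Zq h p.1 p.2 := by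
  have := continuous_psi hM
  have := continuous_Pm hM
  have := continuous_Nc hM
  have := hM.cont
  have hne : ∀ p : ℝ × ℝ, h (p.1 ^ 2 + p.2 ^ 2) ≠ 0 := fun p => (hM.pos _ (by positivity)).ne'
  unfold Zq
  fun_prop (disch := exact hne)

theorem Zq_zero (hM : Met h) (c : ℝ) : Zq h c 0 = 1 := by
  have h1 := mul_Nc hM (c ^ 2)
  have h2 := (hM.pos (c ^ 2) (by positivity)).ne'
  simp [Zq, Pm, psi_zero]
  rw [div_eq_one_iff_eq h2]
  linear_combination -h1

theorem Zq_monotone (hM : Met h) (c : ℝ) : MonotoneOn (Zq h c) (Ici 0) := by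
  have hd : ∀ w, 0 < w → ∃ d, HasDerivAt (Zq h c) d w ∧ 0 ≤ d := by
    intro w hw
    have hu : 0 < c ^ 2 + w ^ 2 := by positivity
    have hp := hasDerivAt_psi_w hM c w
    have hsq : HasDerivAt (fun t => c ^ 2 + t ^ 2) (2 * w) w := by
      simpa using (hasDerivAt_pow 2 w).const_add (c ^ 2)
    have hN := (hasDerivAt_Nc hM hu.ne').comp w hsq
    have hh := (hM.hasDeriv (c ^ 2 + w ^ 2)).comp w hsq
    have hP : HasDerivAt (fun t => (Pm h (c, t)).1)
        (sin (psi h c w) + c * Nc h (c ^ 2 + w ^ 2) * (Pm h (c, w)).2) w := by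
      refine ((hp.cos.const_mul c).add ((hasDerivAt_id w).mul hp.sin)).congr_deriv ?_
      simp [Pm]
      ring
    have hB := hM.pos (c ^ 2 + w ^ 2) hu.le
    refine ⟨_, (hp.cos.sub ((hN.const_mul c).mul hP)).div hh hB.ne', ?_⟩
    have hP2 := Pm_snd_nonneg hM (p := (c, w)) hw.le
    have hu' := mul_Nc hM (c ^ 2 + w ^ 2)
    have hanti := hM.anti (c ^ 2 + w ^ 2) hu.le
    have hN0 := Nc_nonneg hM hu.le
    simp only [Function.comp_apply, Pi.sub_apply, Pi.mul_apply, Pm] at hP2 ⊢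
    set N := Nc h (c ^ 2 + w ^ 2)
    set B := h (c ^ 2 + w ^ 2)
    set d := deriv h (c ^ 2 + w ^ 2)
    set sv := sin (psi h c w)
    set cv := cos (psi h c w)
    set u := c ^ 2 + w ^ 2 with hudef
    have key : 0 ≤ (-c * sv + w * cv) * (N * (1 + B) * c ^ 2 * B - 2 * w ^ 2 * d) / (B ^ 2 * u) := by
      refine div_nonneg (mul_nonneg hP2 ?_) (by positivity)
      have : 0 ≤ N * (1 + B) * c ^ 2 * B := by positivity
      nlinarith [mul_nonneg (sq_nonneg w) (neg_nonneg.2 hanti)]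
    refine le_of_le_of_eq key ?_
    have hBe : B = 1 - u * N := by linarith
    field_simp
    rw [hBe, hudef]
    ring
  refine monotoneOn_of_deriv_nonneg (convex_Ici 0)
    ((continuous_Zq hM).comp (continuous_const.prodMk continuous_id)).continuousOn
    (fun w hw => ?_) fun w hw => ?_
  · rw [interior_Ici] at hw
    obtain ⟨d, hd, -⟩ := hd w hw
    exact hd.differentiableAt.differentiableWithinAt
  · rw [interior_Ici] at hw
    obtain ⟨d, hd, hd0⟩ := hd w hw
    rw [hd.deriv]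
    exact hd0

theorem Zq_neg (c w : ℝ) : Zq h c (-w) = Zq h c w := by
  simp [Zq, Pm, psi_neg]

theorem one_le_Zq (hM : Met h) (c w : ℝ) : 1 ≤ Zq h c w := by
  rcases le_total 0 w with hw | hw
  · exact Zq_zero hM c ▸ Zq_monotone hM c (mem_Ici.2 le_rfl) hw hw
  · rw [← Zq_neg]
    exact Zq_zero hM c ▸ Zq_monotone hM c (mem_Ici.2 le_rfl) (neg_nonneg.2 hw) (neg_nonneg.2 hw)

/-- The orbit factor divided by the distance to the axis. -/
def Ef (h : ℝ → ℝ) (q : ℝ × ℝ) : ℝ := ∫ u in (0 : ℝ)..1, Zq h q.1 (Wi h q.1 (u * q.2))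

theorem continuous_Ef_integrand (hM : Met h) :
    Continuous fun x : (ℝ × ℝ) × ℝ => Zq h x.1.1 (Wi h x.1.1 (x.2 * x.1.2)) := by
  have := continuous_Zq hM
  have := continuous_Wi hM
  fun_prop

theorem exists_chart (hM : Met h) : ∃ Q Jd E, Chart h Q Jd E := by
  have hW := continuous_Wi hM
  have hZ := continuous_Zq hM
  have hJ := continuous_Jw hM
  refine ⟨chartHomeo hM, fun q => Jw h q.1 (Wi h q.1 q.2), Ef h, ?_⟩
  have hcoe : ⇑(chartHomeo hM) = Qf h := rfl
  have hW0 : ∀ c, Wi h c 0 = 0 := fun c => by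
    have := Wi_Sw hM c 0
    simpa [Sw] using this
  have hint : ∀ q : ℝ × ℝ, Continuous fun u => Zq h q.1 (Wi h q.1 (u * q.2)) := fun q => by fun_prop
  constructor
  · rw [hcoe]; exact contDiff_Qf hM
  · intro q
    rw [hcoe]
    have hd : ∀ u ∈ uIcc (0 : ℝ) 1, HasDerivAt (fun u => (Qf h (q.1, u * q.2)).2)
        (q.2 * Zq h q.1 (Wi h q.1 (u * q.2))) u := by
      intro u _
      have hl : HasDerivAt (fun u : ℝ => (q.1, u * q.2)) ((0 : ℝ), q.2) u :=
        (hasDerivAt_const u q.1).prodMk (by simpa using (hasDerivAt_id u).mul_const q.2)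
      have := (((contDiff_Qf hM).differentiable one_ne_zero _).hasFDerivAt.comp_hasDerivAt u hl)
      have h2 := (hasFDerivAt_snd (𝕜 := ℝ) (p := Qf h (q.1, u * q.2))).comp_hasDerivAt u this
      refine h2.congr_deriv ?_
      simp [fderiv_Qf_apply hM, dQ, dPm, Zq]
      ring
    have e := intervalIntegral.integral_eq_sub_of_hasDerivAt hd
      (((hint q).const_mul q.2).intervalIntegrable _ _)
    rw [intervalIntegral.integral_const_mul] at e
    simp [Qf, Pm, hW0, psi_zero] at e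
    simpa [Ef, Qf, Pm] using e.symm
  · exact intervalIntegral.continuous_parametric_intervalIntegral_of_continuous'
      (continuous_Ef_integrand hM) 0 1
  · intro q
    calc (1 : ℝ) = ∫ _u in (0 : ℝ)..1, (1 : ℝ) := by simp
      _ ≤ _ := intervalIntegral.integral_mono_on zero_le_one intervalIntegrable_const
          ((hint q).intervalIntegrable _ _) fun u _ => one_le_Zq hM _ _
  · intro c s hs s' hs' hss
    refine intervalIntegral.integral_mono_on zero_le_one ((hint (c, s)).intervalIntegrable _ _)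
      ((hint (c, s')).intervalIntegrable _ _) fun u hu => ?_
    have h0 : ∀ a, 0 ≤ a → 0 ≤ Wi h c (u * a) := fun a ha =>
      hW0 c ▸ Wi_monotone hM c (mul_nonneg hu.1 ha)
    exact Zq_monotone hM c (h0 s hs) (h0 s' hs') (Wi_monotone hM c (mul_le_mul_of_nonneg_left hss hu.1))
  · fun_prop
  · exact fun q => Jw_pos hM _ _
  · intro c s hs s' hs' hss
    exact Jw_monotone hM c (hW0 c ▸ Wi_monotone hM c hs : 0 ≤ Wi h c s)
      (hW0 c ▸ Wi_monotone hM c hs' : 0 ≤ Wi h c s') (Wi_monotone hM c hss)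
  · intro q a b
    rw [hcoe, fderiv_Qf_apply hM]
    set w := Wi h q.1 q.2
    have hn := Pm_normSq (h := h) (q.1, w)
    have hB := hM.pos (q.1 ^ 2 + w ^ 2) (by positivity)
    have hu := mul_Nc hM (q.1 ^ 2 + w ^ 2)
    have hsc := sin_sq_add_cos_sq (psi h q.1 w)
    simp only [gq2]
    rw [show (Qf h q).1 ^ 2 + (Qf h q).2 ^ 2 = q.1 ^ 2 + w ^ 2 from hn]
    simp only [Qf, dQ, dPm, Pm, Jw]
    set sv := sin (psi h q.1 w)
    set cv := cos (psi h q.1 w)
    set B := h (q.1 ^ 2 + w ^ 2) with hBdef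
    set N := Nc h (q.1 ^ 2 + w ^ 2)
    set D := Dw h q.1 w
    obtain ⟨y, hy⟩ : ∃ y, y = (b + q.1 * D * a) / B := ⟨_, rfl⟩
    have hb : b = B * y - q.1 * D * a := by rw [hy]; field_simp; ring
    rw [← hy, hb]
    set t := (D - w * N) * a + q.1 * N * y
    have e1 : (cv * a + sv * y + t * (-q.1 * sv + w * cv)) ^ 2
        + (-sv * a + cv * y - t * (q.1 * cv + w * sv)) ^ 2
        = (a + t * w) ^ 2 + (y - t * q.1) ^ 2 := by
      linear_combination ((a + t * w) ^ 2 + (y - t * q.1) ^ 2) * hsc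
    have e2 : (q.1 * cv + w * sv) * (cv * a + sv * y + t * (-q.1 * sv + w * cv))
        + (-q.1 * sv + w * cv) * (-sv * a + cv * y - t * (q.1 * cv + w * sv))
        = q.1 * a + w * y := by
      linear_combination (q.1 * a + w * y) * hsc
    rw [e1, e2]
    have hBe : B = 1 - (q.1 ^ 2 + w ^ 2) * N := by linarith
    rw [hBe]
    simp only [t]
    ring
  · intro q
    rw [hcoe, det_two, fderiv_Qf_apply hM, fderiv_Qf_apply hM]
    set w := Wi h q.1 q.2
    have hn := Pm_normSq (h := h) (q.1, w)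
    have hB := hM.pos (q.1 ^ 2 + w ^ 2) (by positivity)
    have hu := mul_Nc hM (q.1 ^ 2 + w ^ 2)
    have hsc := sin_sq_add_cos_sq (psi h q.1 w)
    have hj := Jw_pos hM q.1 w
    rw [show (Qf h q).1 ^ 2 + (Qf h q).2 ^ 2 = q.1 ^ 2 + w ^ 2 from hn]
    simp only [dQ, dPm, Pm, Jw] at hj ⊢
    set sv := sin (psi h q.1 w)
    set cv := cos (psi h q.1 w)
    set B := h (q.1 ^ 2 + w ^ 2)
    set N := Nc h (q.1 ^ 2 + w ^ 2)
    set D := Dw h q.1 w
    have hdet : ∀ x : ℝ, x = (B + w * D) / B → B * |x| = B + w * D := fun x hx => by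
      rw [hx, abs_of_pos (div_pos hj hB), mul_div_cancel₀ _ hB.ne']
    refine hdet _ ?_
    field_simp
    linear_combination B * (1 + w * D - (q.1 ^ 2 + w ^ 2) * N) * hsc - B * hu

end

end Vale.Agent.P219.Sharp
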