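import Vale.Agent.P219.Sharp.Defs

/-!
# P219: the functions describing Fermi coordinates about the axis

Derivatives of `T`, `S`, `D` and of the angle `psi`, and the rotation map `P`.
-/

namespace Vale.Agent.P219.Sharp

open MeasureTheory Metric Set Filter Real
open scoped RealInnerProductSpace Topology

noncomputable section

variable {h : ℝ → ℝ}

theorem Met.cont (hM : Met h) : Continuous h := hM.smooth.continuous

theorem Met.cont_deriv (hM : Met h) : Continuous (deriv h) :=
  hM.smooth.continuous_deriv le_rfl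

theorem Met.hasDeriv (hM : Met h) (u : ℝ) : HasDerivAt h (deriv h u) u :=
  ((hM.smooth.differentiable one_ne_zero) u).hasDerivAt

theorem Met.antitone (hM : Met h) : AntitoneOn h (Ici 0) :=
  antitoneOn_of_deriv_nonpos (convex_Ici 0) hM.cont.continuousOn
    (hM.smooth.differentiable one_ne_zero).differentiableOn
    fun x hx => hM.anti x (by rw [interior_Ici] at hx; exact le_of_lt hx)

theorem Met.le_one (hM : Met h) {u : ℝ} (hu : 0 ≤ u) : h u ≤ 1 :=
  hM.one ▸ hM.antitone (mem_Ici.2 le_rfl) (mem_Ici.2 hu) hu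

theorem continuous_Nc (hM : Met h) : Continuous (Nc h) := by
  have := hM.cont_deriv
  refine (intervalIntegral.continuous_parametric_intervalIntegral_of_continuous'
    (f := fun u s => deriv h (s * u)) ?_ 0 1).neg
  fun_prop

theorem mul_Nc (hM : Met h) (u : ℝ) : u * Nc h u = 1 - h u := by
  have := hM.cont_deriv
  have hd : ∀ s ∈ uIcc (0 : ℝ) 1, HasDerivAt (fun s => h (s * u)) (deriv h (s * u) * u) s :=
    fun s _ => by
      simpa [Function.comp_def] using (hM.hasDeriv (s * u)).comp s ((hasDerivAt_id s).mul_const u)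
  have e := intervalIntegral.integral_eq_sub_of_hasDerivAt hd
    ((by fun_prop : Continuous fun s => deriv h (s * u) * u).intervalIntegrable _ _)
  rw [intervalIntegral.integral_mul_const] at e
  simp only [one_mul, zero_mul, hM.one] at e
  rw [Nc, mul_neg, mul_comm, e]
  ring

theorem Nc_nonneg (hM : Met h) {u : ℝ} (hu : 0 ≤ u) : 0 ≤ Nc h u := by
  rcases hu.eq_or_lt with rfl | h0
  · simpa [Nc] using neg_nonneg.2 (hM.anti 0 le_rfl)
  · nlinarith [mul_Nc hM u, hM.le_one h0.le]

/-- The derivative of `Nc` away from zero. -/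
theorem hasDerivAt_Nc (hM : Met h) {u : ℝ} (hu : u ≠ 0) :
    HasDerivAt (Nc h) ((-deriv h u - Nc h u) / u) u := by
  have e : Nc h =ᶠ[𝓝 u] fun v => (1 - h v) / v := by
    filter_upwards [isOpen_ne.mem_nhds hu] with v hv
    rw [eq_div_iff hv, mul_comm]
    exact mul_Nc hM v
  refine HasDerivAt.congr_of_eventuallyEq ?_ e
  refine ((((hM.hasDeriv u).const_sub 1).div (hasDerivAt_id' u) hu)).congr_deriv ?_
  have := mul_Nc hM u
  field_simp
  linear_combination this

/-- Differentiation under the integral sign for a continuous integrand. -/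
theorem param_deriv {f f' : ℝ → ℝ → ℝ} (hf : Continuous ↿f) {c0 r : ℝ} (hr : 0 < r)
    (hf' : ContinuousOn ↿f' (closedBall c0 r ×ˢ univ))
    (hd : ∀ c ∈ closedBall c0 r, ∀ t, HasDerivAt (fun x => f x t) (f' c t) c) (a b : ℝ) :
    HasDerivAt (fun x => ∫ t in a..b, f x t) (∫ t in a..b, f' c0 t) c0 := by
  obtain ⟨C, hC⟩ := ((isCompact_closedBall c0 r).prod isCompact_uIcc).exists_bound_of_continuousOn
    (hf'.mono (prod_mono (subset_refl _) (subset_univ (uIcc a b))))
  refine (intervalIntegral.hasDerivAt_integral_of_dominated_loc_of_deriv_le (bound := fun _ => C)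
    (closedBall_mem_nhds c0 hr) (Eventually.of_forall fun x => ?_)
    ((hf.comp (continuous_const.prodMk continuous_id)).intervalIntegrable _ _) ?_
    (ae_of_all _ fun t ht x hx => hC (x, t) ⟨hx, uIoc_subset_uIcc ht⟩) intervalIntegrable_const
    (ae_of_all _ fun t _ x hx => hd x hx t)).2
  · exact (hf.comp (continuous_const.prodMk continuous_id)).aestronglyMeasurable
  · exact (hf'.comp_continuous (continuous_const.prodMk continuous_id)
      fun t => ⟨mem_closedBall_self hr.le, mem_univ _⟩).aestronglyMeasurable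

theorem continuous_primitive {g : ℝ → ℝ → ℝ} (hg : Continuous ↿g) :
    Continuous fun p : ℝ × ℝ => ∫ t in (0 : ℝ)..p.2, g p.1 t :=
  intervalIntegral.continuous_parametric_intervalIntegral_of_continuous
    (f := fun p : ℝ × ℝ => g p.1) (s := fun p : ℝ × ℝ => p.2)
    (hg.comp ((continuous_fst.comp continuous_fst).prodMk continuous_snd)) continuous_snd

/-- The arc length along the geodesic with foot `c`. -/
def Sw (h : ℝ → ℝ) (c w : ℝ) : ℝ := ∫ t in (0 : ℝ)..w, h (c ^ 2 + t ^ 2)

/-- The curvature integral along the geodesic. -/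
def Dw (h : ℝ → ℝ) (c w : ℝ) : ℝ := ∫ t in (0 : ℝ)..w, -2 * deriv h (c ^ 2 + t ^ 2)

/-- The turning angle. -/
def psi (h : ℝ → ℝ) (c w : ℝ) : ℝ := ∫ t in (0 : ℝ)..w, c * Nc h (c ^ 2 + t ^ 2)

/-- The Jacobi field. -/
def Jw (h : ℝ → ℝ) (c w : ℝ) : ℝ := h (c ^ 2 + w ^ 2) + w * Dw h c w

/-- The point of the meridian plane at parameter `w` on the geodesic with foot `c`. -/
def Pm (h : ℝ → ℝ) (p : ℝ × ℝ) : ℝ × ℝ :=
  (p.1 * cos (psi h p.1 p.2) + p.2 * sin (psi h p.1 p.2),
    -p.1 * sin (psi h p.1 p.2) + p.2 * cos (psi h p.1 p.2))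

theorem continuous_Sw (hM : Met h) : Continuous fun p : ℝ × ℝ => Sw h p.1 p.2 := by
  have := hM.cont
  exact continuous_primitive (g := fun c t => h (c ^ 2 + t ^ 2)) (by fun_prop)

theorem continuous_Dw (hM : Met h) : Continuous fun p : ℝ × ℝ => Dw h p.1 p.2 := by
  have := hM.cont_deriv
  exact continuous_primitive (g := fun c t => -2 * deriv h (c ^ 2 + t ^ 2)) (by fun_prop)

theorem continuous_psi (hM : Met h) : Continuous fun p : ℝ × ℝ => psi h p.1 p.2 := by
  have := continuous_Nc hM
  exact continuous_primitive (g := fun c t => c * Nc h (c ^ 2 + t ^ 2)) (by fun_prop)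

theorem continuous_Jw (hM : Met h) : Continuous fun p : ℝ × ℝ => Jw h p.1 p.2 := by
  have := hM.cont
  have := continuous_Dw hM
  unfold Jw
  fun_prop

theorem hasDerivAt_Sw_w (hM : Met h) (c w : ℝ) :
    HasDerivAt (Sw h c) (h (c ^ 2 + w ^ 2)) w := by
  have := hM.cont
  exact ((by fun_prop : Continuous fun t => h (c ^ 2 + t ^ 2)).integral_hasStrictDerivAt 0 w).hasDerivAt

theorem hasDerivAt_Dw_w (hM : Met h) (c w : ℝ) :
    HasDerivAt (Dw h c) (-2 * deriv h (c ^ 2 + w ^ 2)) w := by
  have := hM.cont_deriv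
  exact ((by fun_prop : Continuous fun t => -2 * deriv h (c ^ 2 + t ^ 2)).integral_hasStrictDerivAt
    0 w).hasDerivAt

theorem hasDerivAt_psi_w (hM : Met h) (c w : ℝ) :
    HasDerivAt (psi h c) (c * Nc h (c ^ 2 + w ^ 2)) w := by
  have := continuous_Nc hM
  exact ((by fun_prop : Continuous fun t => c * Nc h (c ^ 2 + t ^ 2)).integral_hasStrictDerivAt
    0 w).hasDerivAt

theorem hasDerivAt_Sw_c (hM : Met h) (c w : ℝ) :
    HasDerivAt (fun x => Sw h x w) (-c * Dw h c w) c := by
  have := hM.cont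
  have := hM.cont_deriv
  have h1 := param_deriv (f := fun x t => h (x ^ 2 + t ^ 2))
    (f' := fun x t => deriv h (x ^ 2 + t ^ 2) * (2 * x)) (c0 := c) (by fun_prop) one_pos
    (by fun_prop) (fun x _ t => by
      refine (hM.hasDeriv _).comp x ?_
      simpa using ((hasDerivAt_pow 2 x).add_const (t ^ 2))) 0 w
  refine h1.congr_deriv ?_
  rw [Dw, ← intervalIntegral.integral_const_mul]
  exact intervalIntegral.integral_congr fun t _ => by ring

theorem hasDerivAt_psi_c (hM : Met h) (c w : ℝ) :
    HasDerivAt (fun x => psi h x w) (Dw h c w - w * Nc h (c ^ 2 + w ^ 2)) c := by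
  have hN := continuous_Nc hM
  have hd := hM.cont_deriv
  refine hasDerivAt_of_hasDerivAt_of_ne' (f := fun x => psi h x w)
    (g := fun x => Dw h x w - w * Nc h (x ^ 2 + w ^ 2)) (x := 0) (fun y hy => ?_)
    ((continuous_psi hM).comp (continuous_id.prodMk continuous_const)).continuousAt
    (((continuous_Dw hM).comp (continuous_id.prodMk continuous_const)).sub
      (by fun_prop : Continuous fun x : ℝ => w * Nc h (x ^ 2 + w ^ 2))).continuousAt c
  have hpos : ∀ x ∈ closedBall y (|y| / 2), ∀ t : ℝ, 0 < x ^ 2 + t ^ 2 := by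
    intro x hx t
    have hx0 : x ≠ 0 := by
      rintro rfl
      rw [mem_closedBall, dist_comm, dist_zero_right, norm_eq_abs] at hx
      linarith [abs_pos.2 hy]
    positivity
  let f' : ℝ → ℝ → ℝ := fun x t => Nc h (x ^ 2 + t ^ 2) +
    x * ((-deriv h (x ^ 2 + t ^ 2) - Nc h (x ^ 2 + t ^ 2)) / (x ^ 2 + t ^ 2) * (2 * x))
  have h1 := param_deriv (f := fun x t => x * Nc h (x ^ 2 + t ^ 2)) (f' := f') (by fun_prop)
    (show 0 < |y| / 2 by positivity) (c0 := y)
    (by
      refine ContinuousOn.add (by fun_prop) (ContinuousOn.mul (by fun_prop) (ContinuousOn.mul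
        (ContinuousOn.div (by fun_prop) (by fun_prop) fun p hp => ?_) (by fun_prop)))
      exact (hpos p.1 hp.1 p.2).ne')
    (fun x hx t => by
      have h2 := (hasDerivAt_Nc hM (hpos x hx t).ne').comp x
        ((hasDerivAt_pow 2 x).add_const (t ^ 2))
      exact ((hasDerivAt_id x).mul h2).congr_deriv (by simp [f'])) 0 w
  refine h1.congr_deriv ?_
  have hu : ∀ t : ℝ, y ^ 2 + t ^ 2 ≠ 0 := fun t => by positivity
  have hg : ∀ t ∈ uIcc 0 w, HasDerivAt (fun t => t * Nc h (y ^ 2 + t ^ 2))
      (-2 * deriv h (y ^ 2 + t ^ 2) - f' y t) t := by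
    intro t _
    have h2 := (hasDerivAt_Nc hM (hu t)).comp t ((hasDerivAt_pow 2 t).const_add (y ^ 2))
    refine ((hasDerivAt_id t).mul h2).congr_deriv ?_
    simp only [id, f', Function.comp_apply]
    field_simp [hu t]
    push_cast
    ring
  have hc : Continuous (f' y) :=
    (hN.comp (by fun_prop)).add (continuous_const.mul ((((hd.comp (by fun_prop)).neg.sub
      (hN.comp (by fun_prop))).div (by fun_prop) hu).mul continuous_const))
  have e := intervalIntegral.integral_eq_sub_of_hasDerivAt hg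
    (((by fun_prop : Continuous fun t => -2 * deriv h (y ^ 2 + t ^ 2)).sub hc).intervalIntegrable _ _)
  rw [intervalIntegral.integral_sub ((by fun_prop : Continuous fun t =>
    -2 * deriv h (y ^ 2 + t ^ 2)).intervalIntegrable _ _) (hc.intervalIntegrable _ _)] at e
  simp only [zero_mul, sub_zero] at e
  rw [Dw]
  linarith

theorem Dw_nonneg (hM : Met h) (c : ℝ) {w : ℝ} (hw : 0 ≤ w) : 0 ≤ Dw h c w :=
  intervalIntegral.integral_nonneg hw fun t _ => by
    linarith [hM.anti (c ^ 2 + t ^ 2) (by positivity)]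

theorem prim_odd {g : ℝ → ℝ} (hg : ∀ t, g (-t) = g t) (w : ℝ) :
    ∫ t in (0 : ℝ)..-w, g t = -∫ t in (0 : ℝ)..w, g t := by
  have := intervalIntegral.integral_comp_neg (a := 0) (b := w) g
  simp only [hg, neg_zero] at this
  rw [this, intervalIntegral.integral_symm]

theorem Sw_neg (c w : ℝ) : Sw h c (-w) = -Sw h c w := prim_odd (fun t => by simp) w

theorem Dw_neg (c w : ℝ) : Dw h c (-w) = -Dw h c w := prim_odd (fun t => by simp) w

theorem psi_neg (c w : ℝ) : psi h c (-w) = -psi h c w := prim_odd (fun t => by simp) w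

theorem psi_zero (c : ℝ) : psi h c 0 = 0 := intervalIntegral.integral_same

theorem Jw_pos (hM : Met h) (c w : ℝ) : 0 < Jw h c w := by
  have h1 : 0 ≤ w * Dw h c w := by
    rcases le_total 0 w with hw | hw
    · exact mul_nonneg hw (Dw_nonneg hM c hw)
    · have := Dw_nonneg hM c (neg_nonneg.2 hw)
      rw [Dw_neg] at this
      nlinarith
  have := hM.pos (c ^ 2 + w ^ 2) (by positivity)
  unfold Jw
  linarith

theorem Jw_monotone (hM : Met h) (c : ℝ) : MonotoneOn (Jw h c) (Ici 0) := by
  have hd : ∀ w, HasDerivAt (Jw h c) (Dw h c w) w := fun w => by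
    have h1 := (hM.hasDeriv (c ^ 2 + w ^ 2)).comp w ((hasDerivAt_pow 2 w).const_add (c ^ 2))
    refine (h1.add ((hasDerivAt_id w).mul (hasDerivAt_Dw_w hM c w))).congr_deriv ?_
    simp only [id]
    push_cast
    ring
  refine monotoneOn_of_deriv_nonneg (convex_Ici 0)
    (fun w _ => (hd w).continuousAt.continuousWithinAt)
    (fun w _ => (hd w).differentiableAt.differentiableWithinAt) fun w hw => ?_
  rw [(hd w).deriv]
  exact Dw_nonneg hM c (by rw [interior_Ici] at hw; exact le_of_lt hw)

end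

end Vale.Agent.P219.Sharp
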