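import Vale.Agent.P219.Sharp.Dist

/-!
# P219: reflections in hyperplanes through the centre, polarisation
-/

namespace Vale.Agent.P219.Sharp

open MeasureTheory Metric Set Filter
open scoped RealInnerProductSpace Topology

noncomputable section

variable {n : ℕ} {h : ℝ → ℝ}

/-- The reflection in the hyperplane orthogonal to `a`. -/
def refl (a : Sp n) : Sp n ≃ₗᵢ[ℝ] Sp n := (ℝ ∙ a)ᗮ.reflection

theorem refl_refl (a z : Sp n) : refl a (refl a z) = z := Submodule.reflection_reflection _ z

theorem refl_of_inner_zero {a z : Sp n} (hz : ⟪a, z⟫ = 0) : refl a z = z :=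
  Submodule.reflection_mem_subspace_eq_self
    (Submodule.mem_orthogonal_singleton_iff_inner_right.2 hz)

theorem refl_apply {a : Sp n} (ha : ‖a‖ = 1) (z : Sp n) :
    refl a z = z - (2 * ⟪a, z⟫) • a := by
  have hp : ⟪a, z - ⟪a, z⟫ • a⟫ = 0 := by
    rw [inner_sub_right, inner_smul_right, real_inner_self_eq_norm_sq, ha]; ring
  have hn : refl a a = -a := Submodule.reflection_orthogonalComplement_singleton_eq_neg a
  conv_lhs => rw [show z = (z - ⟪a, z⟫ • a) + ⟪a, z⟫ • a by abel]
  rw [map_add, map_smul, refl_of_inner_zero hp, hn]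
  module

theorem inner_refl {a : Sp n} (ha : ‖a‖ = 1) (e z : Sp n) :
    ⟪e, refl a z⟫ = ⟪e, z⟫ - 2 * ⟪a, z⟫ * ⟪e, a⟫ := by
  rw [refl_apply ha, inner_sub_right, inner_smul_right]

theorem inner_refl_self {a : Sp n} (ha : ‖a‖ = 1) (z : Sp n) : ⟪a, refl a z⟫ = -⟪a, z⟫ := by
  rw [inner_refl ha, real_inner_self_eq_norm_sq, ha]; ring

theorem gq_refl (h : ℝ → ℝ) (a z v : Sp n) : gq h (refl a z) (refl a v) = gq h z v := by
  simp [gq, LinearIsometryEquiv.inner_map_map]

theorem segLen_refl (h : ℝ → ℝ) (a x y : Sp n) :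
    segLen h (refl a x) (refl a y) = segLen h x y := by
  refine intervalIntegral.integral_congr fun s _ => ?_
  rw [← map_sub, ← map_smul, ← map_add, gq_refl]

theorem chain_refl (h : ℝ → ℝ) (a : Sp n) : ∀ (l : List (Sp n)) (x y : Sp n),
    chain h (refl a x) (l.map (refl a)) (refl a y) = chain h x l y
  | [], x, y => segLen_refl h a x y
  | b :: l, x, y => by simp [chain, segLen_refl h a x b, chain_refl h a l b y]

theorem gdist_refl (h : ℝ → ℝ) (a x y : Sp n) :
    gdist h (refl a x) (refl a y) = gdist h x y := by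
  have hs : Function.Surjective (List.map (refl a)) := fun l =>
    ⟨l.map (refl a), by simp [List.map_map, Function.comp_def, refl_refl]⟩
  rw [gdist, gdist, ← hs.iInf_comp]
  exact iInf_congr fun l => chain_refl h a l x y

theorem gq_smul (h : ℝ → ℝ) (z v : Sp n) (c : ℝ) : gq h z (c • v) = c ^ 2 * gq h z v := by
  rw [gq, gq, norm_smul, inner_smul_right, mul_pow, Real.norm_eq_abs, sq_abs]
  ring

theorem segLen_split (hM : Met h) (u v : Sp n) {t : ℝ} (h0 : 0 ≤ t) (h1 : t ≤ 1) :
    segLen h u (u + t • (v - u)) + segLen h (u + t • (v - u)) v = segLen h u v := by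
  set d := v - u with hd
  set g : ℝ → ℝ := fun s => √(gq h (u + s • d) d) with hg
  have hgc : Continuous g := ((continuous_gq hM).comp
    ((continuous_const.add (continuous_id.smul continuous_const)).prodMk continuous_const)).sqrt
  have key : ∀ (c : ℝ) (b : ℝ), 0 ≤ c →
      segLen h (u + b • d) (u + b • d + c • d) = ∫ s in b..(b + c), g s := by
    intro c b hc
    calc segLen h (u + b • d) (u + b • d + c • d) = ∫ s in (0 : ℝ)..1, c * g (c * s + b) := by
          refine intervalIntegral.integral_congr fun s _ => ?_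
          simp only [hg, add_sub_cancel_left, gq_smul, Real.sqrt_mul (sq_nonneg c), Real.sqrt_sq hc]
          congr 3
          module
      _ = _ := by
          rw [intervalIntegral.integral_const_mul, intervalIntegral.mul_integral_comp_mul_add]
          ring_nf
  have e1 := key t 0 h0
  have e2 := key (1 - t) t (sub_nonneg.2 h1)
  have e : u + t • d + (1 - t) • d = v := by rw [hd]; module
  simp only [zero_smul, add_zero, zero_add] at e1
  rw [e, add_sub_cancel] at e2
  rw [e1, e2, intervalIntegral.integral_add_adjacent_intervals (hgc.intervalIntegrable _ _)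
    (hgc.intervalIntegrable _ _)]
  rfl

/-- Moving a point to the nonnegative side of the hyperplane. -/
def fold (a z : Sp n) : Sp n := if 0 ≤ ⟪a, z⟫ then z else refl a z

theorem gdist_fold_le (hM : Met h) {a : Sp n} (u v : Sp n) :
    gdist h (fold a u) (fold a v) ≤ segLen h u v := by
  by_cases hu : 0 ≤ ⟪a, u⟫ <;> by_cases hv : 0 ≤ ⟪a, v⟫ <;> simp only [fold, hu, hv, if_true,
    if_false]
  · exact gdist_le_segLen hM u v
  · obtain ⟨t, h0, h1, hw⟩ : ∃ t : ℝ, 0 ≤ t ∧ t ≤ 1 ∧ ⟪a, u + t • (v - u)⟫ = 0 := by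
      push Not at hv
      refine ⟨⟪a, u⟫ / (⟪a, u⟫ - ⟪a, v⟫), div_nonneg hu (by linarith),
        div_le_one_of_le₀ (by linarith) (by linarith), ?_⟩
      rw [inner_add_right, inner_smul_right, inner_sub_right]
      field_simp [show ⟪a, u⟫ - ⟪a, v⟫ ≠ 0 by linarith]
      ring
    have hwf := refl_of_inner_zero hw
    calc gdist h u (refl a v)
        ≤ gdist h u (u + t • (v - u)) + gdist h (u + t • (v - u)) (refl a v) :=
          gdist_triangle hM _ _ _
      _ ≤ segLen h u (u + t • (v - u)) + segLen h (u + t • (v - u)) v := by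
          refine add_le_add (gdist_le_segLen hM _ _) ?_
          rw [← segLen_refl h a (u + t • (v - u)) v, hwf]
          exact gdist_le_segLen hM _ _
      _ = segLen h u v := segLen_split hM u v h0 h1
  · obtain ⟨t, h0, h1, hw⟩ : ∃ t : ℝ, 0 ≤ t ∧ t ≤ 1 ∧ ⟪a, u + t • (v - u)⟫ = 0 := by
      push Not at hu
      refine ⟨-⟪a, u⟫ / (⟪a, v⟫ - ⟪a, u⟫), div_nonneg (by linarith) (by linarith),
        div_le_one_of_le₀ (by linarith) (by linarith), ?_⟩
      rw [inner_add_right, inner_smul_right, inner_sub_right]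
      field_simp [show ⟪a, v⟫ - ⟪a, u⟫ ≠ 0 by linarith]
      ring
    have hwf := refl_of_inner_zero hw
    calc gdist h (refl a u) v
        ≤ gdist h (refl a u) (u + t • (v - u)) + gdist h (u + t • (v - u)) v :=
          gdist_triangle hM _ _ _
      _ ≤ segLen h u (u + t • (v - u)) + segLen h (u + t • (v - u)) v := by
          refine add_le_add ?_ (gdist_le_segLen hM _ _)
          rw [← segLen_refl h a u, hwf]
          exact gdist_le_segLen hM _ _
      _ = segLen h u v := segLen_split hM u v h0 h1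
  · rw [gdist_refl]
    exact gdist_le_segLen hM u v

theorem gdist_fold_le_chain (hM : Met h) (a : Sp n) : ∀ (l : List (Sp n)) (x y : Sp n),
    gdist h (fold a x) (fold a y) ≤ chain h x l y
  | [], x, y => gdist_fold_le hM x y
  | b :: l, x, y => (gdist_triangle hM _ (fold a b) _).trans
      (add_le_add (gdist_fold_le hM x b) (gdist_fold_le_chain hM a l b y))

theorem gdist_fold_le_gdist (hM : Met h) (a x y : Sp n) :
    gdist h (fold a x) (fold a y) ≤ gdist h x y :=
  le_ciInf fun l => gdist_fold_le_chain hM a l x y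

/-- Points on one side are no further apart than a point and a reflected point. -/
theorem gdist_le_refl (hM : Met h) {a : Sp n} (ha : ‖a‖ = 1) {x y : Sp n} (hx : ⟪a, x⟫ ≤ 0)
    (hy : ⟪a, y⟫ ≤ 0) : gdist h x y ≤ gdist h x (refl a y) := by
  have f1 : fold a (refl a y) = refl a y :=
    if_pos (by rw [inner_refl_self ha]; linarith)
  have f2 : fold a x = refl a x := by
    rcases hx.lt_or_eq with hlt | heq
    · exact if_neg (not_le.2 hlt)
    · rw [fold, if_pos heq.ge, refl_of_inner_zero heq]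
  have := gdist_fold_le_gdist hM a x (refl a y)
  rwa [f1, f2, gdist_refl] at this

/-- Polarisation towards the side of `a`. -/
def pol (a : Sp n) (K : Set (Sp n)) : Set (Sp n) :=
  {z | 0 ≤ ⟪a, z⟫ ∧ (z ∈ K ∨ refl a z ∈ K)} ∪ {z | ⟪a, z⟫ ≤ 0 ∧ z ∈ K ∧ refl a z ∈ K}

theorem isClosed_pol (a : Sp n) {K : Set (Sp n)} (hK : IsClosed K) : IsClosed (pol a K) := by
  have hr := hK.preimage (refl a).continuous
  have hc : Continuous fun z : Sp n => ⟪a, z⟫ := continuous_const.inner continuous_id
  refine IsClosed.union ?_ ?_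
  · exact (isClosed_le continuous_const hc).inter (hK.union hr)
  · exact (isClosed_le hc continuous_const).inter (hK.inter hr)

theorem pol_subset_ball (a : Sp n) {K : Set (Sp n)} {R : ℝ} (hR : K ⊆ closedBall 0 R) :
    pol a K ⊆ closedBall 0 R := by
  have hb : ∀ z, refl a z ∈ K → z ∈ closedBall (0 : Sp n) R := fun z hz => by
    simpa using hR hz
  rintro z (⟨-, hz | hz⟩ | ⟨-, hz, -⟩)
  exacts [hR hz, hb z hz, hR hz]

theorem isCompact_pol (a : Sp n) {K : Set (Sp n)} (hK : IsCompact K) : IsCompact (pol a K) := by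
  obtain ⟨R, hR⟩ := hK.isBounded.subset_closedBall 0
  exact (isCompact_closedBall 0 R).of_isClosed_subset (isClosed_pol a hK.isClosed)
    (pol_subset_ball a hR)

theorem pol_nonempty {a : Sp n} (ha : ‖a‖ = 1) {K : Set (Sp n)} (hK : K.Nonempty) :
    (pol a K).Nonempty := by
  obtain ⟨z, hz⟩ := hK
  rcases le_total 0 ⟪a, z⟫ with h0 | h0
  · exact ⟨z, Or.inl ⟨h0, Or.inl hz⟩⟩
  · exact ⟨refl a z, Or.inl ⟨by rw [inner_refl_self ha]; linarith, Or.inr (by rwa [refl_refl])⟩⟩

theorem thick_pol (hM : Met h) {a : Sp n} (ha : ‖a‖ = 1) (K : Set (Sp n)) (δ : ℝ) :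
    thick h δ (pol a K) ⊆ pol a (thick h δ K) := by
  rintro x ⟨y, hy, hd⟩
  have hr : gdist h (refl a x) (refl a y) ≤ δ := by rwa [gdist_refl]
  rcases le_total 0 ⟪a, x⟫ with hx | hx
  · refine Or.inl ⟨hx, ?_⟩
    rcases hy with ⟨-, hy | hy⟩ | ⟨-, hy, -⟩
    exacts [Or.inl ⟨y, hy, hd⟩, Or.inr ⟨_, hy, hr⟩, Or.inl ⟨y, hy, hd⟩]
  refine Or.inr ⟨hx, ?_⟩
  rcases hy with ⟨hy0, hy⟩ | ⟨-, hy, hy'⟩
  · have hy1 : ⟪a, refl a y⟫ ≤ 0 := by rw [inner_refl_self ha]; linarith
    have hd' : gdist h x (refl a y) ≤ δ := by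
      refine le_trans ?_ hd
      simpa [refl_refl] using gdist_le_refl hM ha hx hy1
    have hd'' : gdist h (refl a x) y ≤ δ := by
      rw [← gdist_refl h a, refl_refl]; exact hd'
    rcases hy with hy | hy
    · exact ⟨⟨y, hy, hd⟩, ⟨y, hy, hd''⟩⟩
    · exact ⟨⟨_, hy, hd'⟩, ⟨_, hy, hr⟩⟩
  · exact ⟨⟨y, hy, hd⟩, ⟨_, hy', hr⟩⟩

/-- The points gained by polarisation. -/
def gain (a : Sp n) (K : Set (Sp n)) : Set (Sp n) := {z | 0 < ⟪a, z⟫ ∧ z ∉ K ∧ refl a z ∈ K}

theorem measurableSet_gain (a : Sp n) {K : Set (Sp n)} (hK : MeasurableSet K) :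
    MeasurableSet (gain a K) :=
  (measurableSet_lt measurable_const (by fun_prop : Measurable fun z : Sp n => ⟪a, z⟫)).inter
    (hK.compl.inter ((refl a).continuous.measurable hK))

theorem pol_eq {a : Sp n} (ha : ‖a‖ = 1) (K : Set (Sp n)) :
    pol a K = (K \ refl a ⁻¹' gain a K) ∪ gain a K := by
  have h0 : ∀ z, ⟪a, z⟫ = 0 → refl a z = z := fun z => refl_of_inner_zero
  ext z
  simp only [pol, gain, mem_union, mem_ofPred_eq, Set.mem_sdiff, mem_preimage, refl_refl,
    inner_refl_self ha]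
  rcases lt_trichotomy ⟪a, z⟫ 0 with hz | hz | hz
  · simp [hz, hz.le, hz.not_gt, hz.not_ge]; tauto
  · simp [hz, h0 z hz]
  · simp [hz, hz.le, hz.not_gt, hz.not_ge]; tauto

/-- Measures before and after polarisation. -/
theorem measure_pol (μ : Measure (Sp n)) {a : Sp n} (ha : ‖a‖ = 1) {K : Set (Sp n)}
    (hK : MeasurableSet K) :
    μ (pol a K) + μ (refl a ⁻¹' gain a K) = μ K + μ (gain a K) := by
  have hm := measurableSet_gain a hK
  have hm' : MeasurableSet (refl a ⁻¹' gain a K) := (refl a).continuous.measurable hm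
  have hsub : refl a ⁻¹' gain a K ⊆ K := fun z hz => by simpa [refl_refl] using hz.2.2
  have hdj : Disjoint (K \ refl a ⁻¹' gain a K) (gain a K) :=
    Set.disjoint_left.2 fun z hz hz' => hz'.2.1 hz.1
  rw [pol_eq ha, measure_union hdj hm, add_right_comm,
    add_comm (μ (K \ _)), measure_add_sdiff hm'.nullMeasurableSet, union_eq_right.2 hsub]

theorem lintegral_refl (a : Sp n) {f : Sp n → ENNReal} (hf : Measurable f) (s : Set (Sp n))
    (hs : MeasurableSet s) :
    ∫⁻ z in refl a ⁻¹' s, f z = ∫⁻ z in s, f (refl a z) := by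
  have hmp := (refl a).measurePreserving
  have := hmp.setLIntegral_comp_preimage hs (hf.comp (refl a).continuous.measurable)
  simpa [refl_refl] using this

theorem measurable_hdens (hM : Met h) :
    Measurable fun z : Sp n => ENNReal.ofReal (h (‖z‖ ^ 2)) := by
  have := hM.cont
  fun_prop

theorem gvol_refl (hM : Met h) (a : Sp n) {s : Set (Sp n)} (hs : MeasurableSet s) :
    gvol h (refl a ⁻¹' s) = gvol h s := by
  rw [gvol, withDensity_apply _ ((refl a).continuous.measurable hs), withDensity_apply _ hs,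
    lintegral_refl a (measurable_hdens hM) s hs]
  simp

theorem gvol_pol (hM : Met h) {a : Sp n} (ha : ‖a‖ = 1) {K : Set (Sp n)} (hK : IsCompact K) :
    gvol h (pol a K) = gvol h K := by
  have hm := measurableSet_gain a hK.measurableSet
  have e := measure_pol (gvol h) ha hK.measurableSet
  rw [gvol_refl hM a hm] at e
  refine (ENNReal.add_left_inj ?_).1 e
  rw [← gvol_refl hM a hm]
  exact ((measure_mono fun z hz => by simpa [refl_refl] using hz.2.2).trans_lt
    (gvol_lt_top hM hK)).ne

end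

end Vale.Agent.P219.Sharp
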